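import Mathlib.Analysis.SpecialFunctions.Pow.Real

namespace Vale.Agent.N164

/-- The series `∑_n exp (-c u_n ^ (16/(8-κ)))` converges, where
`u_n = k(2^{-n}) / (2^{-n})^(1+κ/8)`. -/
def SeriesConv (κ : ℝ) (k : ℝ → ℝ) (c : ℝ) : Prop :=
  Summable fun n : ℕ =>
    Real.exp (-c * (k ((1 / 2) ^ n) / ((1 / 2) ^ n) ^ (1 + κ / 8)) ^ (16 / (8 - κ)))

end Vale.Agent.N164
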