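import Vale.Agent.N164.Sharp

set_option linter.all false

/-!
# Iteration over the scales and covering, with a threshold depending on the scale
-/

namespace Vale.Agent.P164.E8

open Set Metric Filter Topology MeasureTheory ProbabilityTheory
open scoped NNReal ENNReal

section

variable {Ω : Type*} [mΩ : MeasurableSpace Ω] {P : Measure Ω} {W : ℝ → Ω → ℝ} {κ : ℝ}

/-- The induction over the scales. -/
lemma iterate_claimV (h0 : 0 < κ) (h4 : κ < 8) (hW : IsDrv κ P W) {z : ℂ}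
    {b C ε ϰ c δ η u₀ : ℝ} {R p : ℕ → ℝ} {K N : ℕ} (hb : 1 ≤ b) (hC : 1 ≤ C) (hε : 0 < ε) (hϰ : 0 < ϰ)
    (hδ : 0 < δ) (hδϰ : δ ≤ ϰ ^ 2 / 16) (hη : 0 ≤ η) (hp0 : ∀ k, 0 ≤ p k) (hp1 : ∀ k, p k ≤ 1)
    (hz : C * Real.exp u₀ < z.im)
    (hone : ∀ k < K, ∀ i ≤ N, ∀ A : Set Ω, MeasurableSet[past W (i * δ)] A →
      A ⊆ NK ϰ c δ W z i →
      (∀ ω ∈ A, u₀ - b * k - 1 / 4 ≤ Uf (fun v => W v ω) z (i * δ) ∧
        Uf (fun v => W v ω) z (i * δ) ≤ u₀ - b * k) →
      ∑ l ∈ Finset.range (N + 1),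
        ∫⁻ ω in A ∩ NK ϰ c δ W z l ∩ Fst δ (u₀ - b * k - b) W z l ∩
            NG κ C (R k) ε (u₀ - b * k) W z (l * δ),
          ENNReal.ofReal (St (MM κ) (fun v => W v ω) z (l * δ)) ∂P ≤
        ENNReal.ofReal (1 - p k) *
          ∫⁻ ω in A, ENNReal.ofReal (St (MM κ) (fun v => W v ω) z (i * δ)) ∂P +
        ENNReal.ofReal η * P A) :
    ∀ m k : ℕ, k + m = K → ∀ i ≤ N, ∀ A : Set Ω, MeasurableSet[past W (i * δ)] A →
      A ⊆ NK ϰ c δ W z i → A ⊆ Fst δ (u₀ - b * k) W z i →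
      (∀ ω ∈ A, u₀ - b * k - 1 / 4 ≤ Uf (fun v => W v ω) z (i * δ)) →
      ∑ l ∈ Finset.range (N + 1),
        ∫⁻ ω in A ∩ (NK ϰ c δ W z l ∩ Fst δ (u₀ - b * K) W z l ∩
            ⋂ k' ∈ Finset.Ico k K, NG κ C (R k') ε (u₀ - b * k') W z (l * δ)),
          ENNReal.ofReal (St (MM κ) (fun v => W v ω) z (l * δ)) ∂P ≤
        ENNReal.ofReal (∏ j ∈ Finset.Ico k K, (1 - p j)) *
          ∫⁻ ω in A, ENNReal.ofReal (St (MM κ) (fun v => W v ω) z (i * δ)) ∂P +
        ENNReal.ofReal (m * η) * P A := by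
  intro m
  induction m with
  | zero =>
    intro k hk i hi A hA hAN hAF hAU
    have hkK : k = K := by omega
    subst hkK
    have h1 : ∀ l ∈ Finset.range (N + 1), l ≠ i →
        ∫⁻ ω in A ∩ (NK ϰ c δ W z l ∩ Fst δ (u₀ - b * k) W z l ∩
            ⋂ k' ∈ Finset.Ico k k, NG κ C (R k') ε (u₀ - b * k') W z (l * δ)),
          ENNReal.ofReal (St (MM κ) (fun v => W v ω) z (l * δ)) ∂P = 0 := by
      intro l _ hl
      have : A ∩ (NK ϰ c δ W z l ∩ Fst δ (u₀ - b * k) W z l ∩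
            ⋂ k' ∈ Finset.Ico k k, NG κ C (R k') ε (u₀ - b * k') W z (l * δ)) = ∅ := by
        refine Set.eq_empty_iff_forall_notMem.2 ?_
        rintro ω ⟨hω, ⟨-, h2⟩, -⟩
        exact hl (iterate_Fst_eq h2 (hAF hω))
      rw [this]
      simp only [Measure.restrict_empty, lintegral_zero_measure]
    rw [Finset.sum_eq_single_of_mem i (Finset.mem_range.2 (by omega)) h1]
    simp only [Finset.Ico_self, Finset.prod_empty, ENNReal.ofReal_one, one_mul, Nat.cast_zero, zero_mul,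
      ENNReal.ofReal_zero, add_zero]
    exact lintegral_mono_set inter_subset_left
  | succ m ih =>
    intro k hk i hi A hA hAN hAF hAU
    have hkK : k < K := by omega
    have hexp : ∀ k' : ℕ, C * Real.exp (u₀ - b * k') < z.im := by
      intro k'
      refine lt_of_le_of_lt ?_ hz
      have : (0 : ℝ) ≤ b * k' := by (clear * - hb; positivity)
      gcongr
      linarith only [this]
    set AA : ℕ → Set Ω := fun l => A ∩ NK ϰ c δ W z l ∩ Fst δ (u₀ - b * k - b) W z l ∩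
            NG κ C (R k) ε (u₀ - b * k) W z (l * δ) with hAA
    have hub : u₀ - b * ((k + 1 : ℕ) : ℝ) = u₀ - b * k - b := by push_cast; ring
    have halive : ∀ ω ∈ A, z ∈ loewnerDomain (fun v => W v ω) (i * δ) := fun ω hω =>
      ((hAN hω).1 i le_rfl).1
    -- the first index is larger than `i`
    have hgt : ∀ l, ∀ ω ∈ A, ω ∈ Fst δ (u₀ - b * k - b) W z l → i < l := by
      intro l ω hω hF
      by_contra hcon
      have hli : (l : ℝ) * δ ≤ i * δ :=
        mul_le_mul_of_nonneg_right (by exact_mod_cast not_lt.1 hcon) hδ.le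
      have h1 := Uf_le (hW.cont ω) (by (clear * - hδ; positivity)) hli (halive ω hω)
      have h2 := hAU ω hω
      have h3 := hF.1
      linarith only [hb, h1, h2, h3]
    have hAAmeas : ∀ l : ℕ, MeasurableSet[past W (l * δ)] (AA l) := by
      intro l
      by_cases hil : i < l
      · have hli : (i : ℝ) * δ ≤ l * δ :=
          mul_le_mul_of_nonneg_right (by exact_mod_cast hil.le) hδ.le
        have m1 : MeasurableSet[past W (l * δ)] A := past_mono hli _ hA
        have m2 : MeasurableSet[past W (l * δ)] (NK ϰ c δ W z l) := iterate_NK_meas hW hδ.le z l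
        have m3 : MeasurableSet[past W (l * δ)] (Fst δ (u₀ - b * k - b) W z l) :=
          iterate_Fst_meas hW hδ.le _ z l
        have m4 : MeasurableSet[past W (l * δ)] (NG κ C (R k) ε (u₀ - b * k) W z (l * δ)) :=
          iterate_NG_meas hW (by (clear * - hδ; positivity)) z
        exact @MeasurableSet.inter Ω (past W (l * δ)) _ _ (@MeasurableSet.inter Ω (past W (l * δ))
          _ _ (@MeasurableSet.inter Ω (past W (l * δ)) _ _ m1 m2) m3) m4
      · have : AA l = ∅ := by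
          refine Set.eq_empty_iff_forall_notMem.2 ?_
          rintro ω ⟨⟨⟨hω, -⟩, hF⟩, -⟩
          exact absurd (hgt l ω hω hF) hil
        rw [this]
        exact @MeasurableSet.empty Ω (past W (l * δ))
    have hAAmeas' : ∀ l, MeasurableSet (AA l) := fun l => hW.past_le _ (hAAmeas l)
    -- the induction hypothesis applied to each piece
    have hI : ∀ l ∈ Finset.range (N + 1),
        ∑ l' ∈ Finset.range (N + 1),
          ∫⁻ ω in AA l ∩ (A ∩ (NK ϰ c δ W z l' ∩ Fst δ (u₀ - b * K) W z l' ∩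
            ⋂ k' ∈ Finset.Ico k K, NG κ C (R k') ε (u₀ - b * k') W z (l' * δ))),
          ENNReal.ofReal (St (MM κ) (fun v => W v ω) z (l' * δ)) ∂P ≤
        ENNReal.ofReal (∏ j ∈ Finset.Ico (k + 1) K, (1 - p j)) *
          ∫⁻ ω in AA l, ENNReal.ofReal (St (MM κ) (fun v => W v ω) z (l * δ)) ∂P +
        ENNReal.ofReal (m * η) * P (AA l) := by
      intro l hl
      refine le_trans (Finset.sum_le_sum fun l' _ => lintegral_mono_set ?_)
        (ih (k + 1) (by omega) l (Nat.lt_succ_iff.1 (Finset.mem_range.1 hl)) (AA l) (hAAmeas l)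
          (fun ω hω => hω.1.1.2) (fun ω hω => by rw [hub]; exact hω.1.2) ?_)
      · rintro ω ⟨h1, -, ⟨h2, h3⟩, h5⟩
        refine ⟨h1, ⟨h2, h3⟩, ?_⟩
        simp only [Finset.mem_Ico, mem_iInter] at h5 ⊢
        exact fun k' hk' => h5 k' ⟨by omega, hk'.2⟩
      · intro ω hω
        rw [hub]
        have h1 := hgt l ω hω.1.1.1 hω.1.2
        obtain ⟨l0, rfl⟩ : ∃ l0, l = l0 + 1 := ⟨l - 1, by omega⟩
        have h2 := iterate_step hW hϰ hδ.le hδϰ hω.1.1.2
        have h3 := hω.1.2.2 l0 (by omega)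
        linarith only [h2, h3]
    -- decomposition
    have hdec := iterate_decomp (P := P)
      (fun l ω => ENNReal.ofReal (St (MM κ) (fun v => W v ω) z (l * δ))) N
      (fun l => A ∩ (NK ϰ c δ W z l ∩ Fst δ (u₀ - b * K) W z l ∩
            ⋂ k' ∈ Finset.Ico k K, NG κ C (R k') ε (u₀ - b * k') W z (l * δ))) AA (by
        rintro l hl ω ⟨hω, ⟨h2, h3⟩, h5⟩
        have hKk : u₀ - b * K ≤ u₀ - b * k - b := by
          rw [← hub]
          have : ((k + 1 : ℕ) : ℝ) ≤ K := by exact_mod_cast hkK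
          nlinarith only [this, hb]
        obtain ⟨l', hl', hF⟩ := iterate_Fst_exists (u := u₀ - b * k - b) (h3.1.trans hKk)
        simp only [mem_iUnion, Finset.mem_range]
        refine ⟨l', by omega, ⟨⟨hω, iterate_NK_anti hl' h2⟩, hF⟩, ?_⟩
        simp only [mem_iInter, Finset.mem_Ico] at h5
        have hl'' : (l' : ℝ) * δ ≤ l * δ :=
          mul_le_mul_of_nonneg_right (by exact_mod_cast hl') hδ.le
        exact iterate_NG_anti h0 h4 hW hε (hexp k) (by (clear * - hδ; positivity)) hl'' (h5 k ⟨le_rfl, hkK⟩))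
    have hsum1 := hone k hkK i hi A hA hAN fun ω hω => ⟨hAU ω hω, (hAF hω).1⟩
    have hdisj : ∑ l ∈ Finset.range (N + 1), P (AA l) ≤ P A := by
      rw [← measure_biUnion_finset (fun l _ l' _ hne => ?_) (fun l _ => hAAmeas' l)]
      · refine measure_mono (iUnion₂_subset fun l _ ω hω => hω.1.1.1)
      · refine Set.disjoint_left.2 fun ω hω hω' => hne ?_
        exact iterate_Fst_eq hω.1.2 hω'.1.2
    have hq0 : ∀ j, 0 ≤ 1 - p j := fun j => by linarith only [hp1 j]
    have hqm : ∏ j ∈ Finset.Ico (k + 1) K, (1 - p j) ≤ 1 :=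
      Finset.prod_le_one (fun j _ => hq0 j) (fun j _ => by linarith only [hp0 j])
    have hqn : 0 ≤ ∏ j ∈ Finset.Ico (k + 1) K, (1 - p j) := Finset.prod_nonneg fun j _ => hq0 j
    calc _ ≤ ∑ l ∈ Finset.range (N + 1), (ENNReal.ofReal (∏ j ∈ Finset.Ico (k + 1) K, (1 - p j)) *
          ∫⁻ ω in AA l, ENNReal.ofReal (St (MM κ) (fun v => W v ω) z (l * δ)) ∂P +
        ENNReal.ofReal (m * η) * P (AA l)) := hdec.trans (Finset.sum_le_sum hI)
      _ = ENNReal.ofReal (∏ j ∈ Finset.Ico (k + 1) K, (1 - p j)) * (∑ l ∈ Finset.range (N + 1),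
          ∫⁻ ω in AA l, ENNReal.ofReal (St (MM κ) (fun v => W v ω) z (l * δ)) ∂P) +
        ENNReal.ofReal (m * η) * ∑ l ∈ Finset.range (N + 1), P (AA l) := by
          rw [Finset.sum_add_distrib, Finset.mul_sum, Finset.mul_sum]
      _ ≤ ENNReal.ofReal (∏ j ∈ Finset.Ico (k + 1) K, (1 - p j)) * (ENNReal.ofReal (1 - p k) *
          ∫⁻ ω in A, ENNReal.ofReal (St (MM κ) (fun v => W v ω) z (i * δ)) ∂P +
        ENNReal.ofReal η * P A) + ENNReal.ofReal (m * η) * P A := by (clear * - hsum1 hdisj; gcongr)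
      _ ≤ ENNReal.ofReal (∏ j ∈ Finset.Ico k K, (1 - p j)) *
          ∫⁻ ω in A, ENNReal.ofReal (St (MM κ) (fun v => W v ω) z (i * δ)) ∂P +
        ENNReal.ofReal ((m + 1 : ℕ) * η) * P A := by
          have e1 : ENNReal.ofReal (∏ j ∈ Finset.Ico k K, (1 - p j)) =
              ENNReal.ofReal (∏ j ∈ Finset.Ico (k + 1) K, (1 - p j)) * ENNReal.ofReal (1 - p k) := by
            rw [← ENNReal.ofReal_mul hqn, Finset.prod_eq_prod_Ico_succ_bot hkK, mul_comm]
          have e2 : ENNReal.ofReal ((m + 1 : ℕ) * η) = ENNReal.ofReal η +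
              ENNReal.ofReal (m * η) := by
            rw [← ENNReal.ofReal_add hη (by (clear * - hη; positivity))]
            congr 1
            push_cast
            ring
          have e3 : ENNReal.ofReal (∏ j ∈ Finset.Ico (k + 1) K, (1 - p j)) ≤ 1 := by
            rw [← ENNReal.ofReal_one]
            exact ENNReal.ofReal_le_ofReal hqm
          have e4 : ENNReal.ofReal (∏ j ∈ Finset.Ico (k + 1) K, (1 - p j)) * (ENNReal.ofReal η * P A) ≤
              ENNReal.ofReal η * P A := by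
            calc ENNReal.ofReal (∏ j ∈ Finset.Ico (k + 1) K, (1 - p j)) * (ENNReal.ofReal η * P A)
                ≤ 1 * (ENNReal.ofReal η * P A) := mul_le_mul_left e3 _
              _ = _ := one_mul _
          rw [e1, e2]
          calc _ = ENNReal.ofReal (∏ j ∈ Finset.Ico (k + 1) K, (1 - p j)) * ENNReal.ofReal (1 - p k) *
                ∫⁻ ω in A, ENNReal.ofReal (St (MM κ) (fun v => W v ω) z (i * δ)) ∂P +
              ENNReal.ofReal (∏ j ∈ Finset.Ico (k + 1) K, (1 - p j)) * (ENNReal.ofReal η * P A) +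
              ENNReal.ofReal (m * η) * P A := by ring
            _ ≤ ENNReal.ofReal (∏ j ∈ Finset.Ico (k + 1) K, (1 - p j)) * ENNReal.ofReal (1 - p k) *
                ∫⁻ ω in A, ENNReal.ofReal (St (MM κ) (fun v => W v ω) z (i * δ)) ∂P +
              ENNReal.ofReal η * P A +
              ENNReal.ofReal (m * η) * P A := add_le_add (add_le_add le_rfl e4) le_rfl
            _ = _ := by ring

end

/-- Iteration of the one-scale inequality over `K` scales `u₀ - b k`, `k < K`, from time `0`. -/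
theorem iterate_scalesV {κ : ℝ} (h0 : 0 < κ) (h4 : κ < 8) :
    ∃ b C R₀ : ℝ, 1 ≤ b ∧ 1 ≤ C ∧ 1 ≤ R₀ ∧
      ∀ {Ω : Type*} [MeasurableSpace Ω] {P : Measure Ω} {W : ℝ → Ω → ℝ} (_ : IsDrv κ P W)
      {z : ℂ} {T u₀ ε ϰ η : ℝ} {R : ℕ → ℝ} {K : ℕ} (_ : 0 < T) (_ : C * Real.exp u₀ < z.im)
      (_ : ∀ k, R₀ ≤ R k) (_ : 0 < ε) (_ : ∀ k < K, ε ≤ Real.exp (u₀ - b * K) / (C * R k))
      (_ : 0 < ϰ) (_ : 0 < η),
      ∃ c₀ > 0, ∃ δ₀ > 0, ∀ c, 0 < c → c ≤ c₀ → ∀ δ, 0 < δ → δ ≤ δ₀ → ∀ N : ℕ, N * δ ≤ T →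
        ∑ l ∈ Finset.range (N + 1),
          ∫⁻ ω in NK ϰ c δ W z l ∩ Fst δ (u₀ - b * K) W z l ∩
              ⋂ k ∈ Finset.range K, NG κ C (R k) ε (u₀ - b * k) W z (l * δ),
            ENNReal.ofReal (St (MM κ) (fun v => W v ω) z (l * δ)) ∂P ≤
          ENNReal.ofReal (∏ k ∈ Finset.range K, (1 - Real.exp (-C * R k ^ 2) / C)) *
            ENNReal.ofReal (Real.exp (-xx κ * Real.log z.im)) + ENNReal.ofReal η := by
  obtain ⟨b, C, R₀, hb, hC, hR₀, H⟩ := one_scale h0 h4
  refine ⟨b, C, R₀, hb, hC, hR₀, ?_⟩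
  intro Ω _ P W hW z T u₀ ε ϰ η R K hT hz hR hε hε2 hϰ hη
  have hprob := hW.prob
  have hC0 : 0 < C := by linarith only [hC]
  have hR0 : ∀ k, 0 < R k := fun k => by linarith only [hR₀, hR k]
  have hexp : ∀ k : ℕ, C * Real.exp (u₀ - b * k) < z.im := by
    intro k
    refine lt_of_le_of_lt ?_ hz
    have : (0 : ℝ) ≤ b * k := by (clear * - hb; positivity)
    gcongr
    linarith only [this]
  have hη' : 0 < η / (K + 1) := by (clear * - hη; positivity)
  have h1 := iterate_min (K := K) fun k hk => H hW (z := z) (T := T) (u := u₀ - b * k)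
    (R := R k) (ε := ε) (ϰ := ϰ) (η := η / (K + 1)) hT (hexp k) (hR k) hε ((hε2 k hk).trans (by
      have : ((k + 1 : ℕ) : ℝ) ≤ K := by exact_mod_cast hk
      push_cast at this
      refine div_le_div_of_nonneg_right (Real.exp_le_exp.2 ?_) (mul_pos hC0 (hR0 k)).le
      nlinarith only [this, hb])) hϰ hη'
  obtain ⟨c₀, hc₀, δ₁, hδ₁, H1⟩ := h1
  refine ⟨c₀, hc₀, min δ₁ (ϰ ^ 2 / 16), by (clear * - hδ₁ hϰ; positivity), ?_⟩
  intro c hc hcc δ hδ hδδ N hN
  have H2 := H1 c hc hcc δ hδ (hδδ.trans (min_le_left _ _))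
  have hδϰ : δ ≤ ϰ ^ 2 / 16 := hδδ.trans (min_le_right _ _)
  set p : ℕ → ℝ := fun k => Real.exp (-C * R k ^ 2) / C with hp
  have hp0 : ∀ k, 0 ≤ p k := fun k => by rw [hp]; positivity
  have hp1 : ∀ k, p k ≤ 1 := fun k => by
    rw [hp]
    dsimp only
    rw [div_le_one hC0]
    refine le_trans (Real.exp_le_one_iff.2 ?_) hC
    have : 0 ≤ C * R k ^ 2 := by positivity
    linarith only [this]
  have hzpos : 0 < z.im := lt_trans (by positivity) hz
  have hlogz : u₀ < Real.log z.im := by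
    rw [Real.lt_log_iff_exp_lt hzpos]
    refine lt_of_le_of_lt ?_ hz
    exact le_mul_of_one_le_left (Real.exp_pos _).le hC
  have claim := iterate_claimV (N := N) (R := R) h0 h4 hW hb hC hε hϰ hδ hδϰ hη'.le hp0 hp1 hz
    (fun k hk i hi A hA hAN hAU => H2 k hk N hN i hi A hA hAN hAU) K 0 (by omega)
  have hIco : ∏ j ∈ Finset.Ico 0 K, (1 - p j) = ∏ j ∈ Finset.range K, (1 - p j) := by
    rw [Finset.range_eq_Ico]
  rw [hIco] at claim
  -- decomposition at the first index with `U ≤ u₀`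
  set BB : ℕ → Set Ω := fun l => NK ϰ c δ W z l ∩ Fst δ u₀ W z l with hBB
  have hBBmeas : ∀ l : ℕ, MeasurableSet[past W (l * δ)] (BB l) := by
    intro l
    have m2 : MeasurableSet[past W (l * δ)] (NK ϰ c δ W z l) := iterate_NK_meas hW hδ.le z l
    have m3 : MeasurableSet[past W (l * δ)] (Fst δ u₀ W z l) :=
      iterate_Fst_meas hW hδ.le _ z l
    exact @MeasurableSet.inter Ω (past W (l * δ)) _ _ m2 m3
  have hBBmeas' : ∀ l, MeasurableSet (BB l) := fun l => hW.past_le _ (hBBmeas l)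
  have hBdisj : Pairwise fun i j => Disjoint (BB i) (BB j) := by
    intro l l' hne
    refine Set.disjoint_left.2 fun ω hω hω' => hne ?_
    exact iterate_Fst_eq hω.2 hω'.2
  have hu0 : u₀ - b * ((0 : ℕ) : ℝ) = u₀ := by simp only [CharP.cast_eq_zero, mul_zero, sub_zero]
  have hI : ∀ l ∈ Finset.range (N + 1),
      ∑ l' ∈ Finset.range (N + 1),
        ∫⁻ ω in BB l ∩ (NK ϰ c δ W z l' ∩ Fst δ (u₀ - b * K) W z l' ∩
          ⋂ k' ∈ Finset.range K, NG κ C (R k') ε (u₀ - b * k') W z (l' * δ)),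
        ENNReal.ofReal (St (MM κ) (fun v => W v ω) z (l' * δ)) ∂P ≤
      ENNReal.ofReal (∏ j ∈ Finset.range K, (1 - p j)) *
        ∫⁻ ω in BB l, ENNReal.ofReal (St (MM κ) (fun v => W v ω) z (l * δ)) ∂P +
      ENNReal.ofReal (K * (η / (K + 1))) * P (BB l) := by
    intro l hl
    refine le_trans (Finset.sum_le_sum fun l' _ => lintegral_mono_set ?_)
      (claim l (Nat.lt_succ_iff.1 (Finset.mem_range.1 hl)) (BB l) (hBBmeas l)
        (fun ω hω => hω.1) (fun ω hω => by rw [hu0]; exact hω.2) ?_)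
    · rintro ω ⟨h1, ⟨h2, h3⟩, h5⟩
      refine ⟨h1, ⟨h2, h3⟩, ?_⟩
      simp only [mem_iInter, Finset.mem_Ico, Finset.mem_range] at h5 ⊢
      exact fun k' hk' => h5 k' hk'.2
    · intro ω hω
      rw [hu0]
      rcases Nat.eq_zero_or_pos l with rfl | hl0
      · exfalso
        have h2 := hω.2.1
        simp only [Nat.cast_zero, zero_mul, Uf_zero] at h2
        linarith only [hlogz, h2]
      obtain ⟨l0, rfl⟩ : ∃ l0, l = l0 + 1 := ⟨l - 1, by omega⟩
      have h2 := iterate_step hW hϰ hδ.le hδϰ hω.1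
      have h3 := hω.2.2 l0 (by omega)
      linarith only [h2, h3]
  have hdec := iterate_decomp (P := P)
    (fun l ω => ENNReal.ofReal (St (MM κ) (fun v => W v ω) z (l * δ))) N
    (fun l => NK ϰ c δ W z l ∩ Fst δ (u₀ - b * K) W z l ∩
          ⋂ k' ∈ Finset.range K, NG κ C (R k') ε (u₀ - b * k') W z (l * δ)) BB (by
      rintro l hl ω ⟨⟨h2, h3⟩, h5⟩
      have hKk : u₀ - b * K ≤ u₀ := by
        have : (0 : ℝ) ≤ b * K := by (clear * - hb; positivity)
        linarith only [this]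
      obtain ⟨l', hl', hF⟩ := iterate_Fst_exists (u := u₀) (h3.1.trans hKk)
      simp only [Finset.mem_range, mem_iUnion]
      exact ⟨l', by omega, iterate_NK_anti hl' h2, hF⟩)
  have hsum : ∑ l ∈ Finset.range (N + 1), P (BB l) ≤ 1 := by
    rw [← measure_biUnion_finset (fun l _ l' _ hne => hBdisj hne) (fun l _ => hBBmeas' l)]
    exact prob_le_one
  have hopt : ∑ l ∈ Finset.range (N + 1),
      ∫⁻ ω in BB l, ENNReal.ofReal (St (MM κ) (fun v => W v ω) z (l * δ)) ∂P ≤
      ENNReal.ofReal (Real.exp (-xx κ * Real.log z.im)) := by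
    have hop := optional_stopping (P := P) (A := Set.univ) (N := N)
      (V := fun i ω => ENNReal.ofReal (St (MM κ) (fun v => W v ω) z (i * δ)))
      (E := BB) (m := fun i : ℕ => past W (i * δ)) (@MeasurableSet.univ Ω _)
      (fun i j hij => past_mono (mul_le_mul_of_nonneg_right (by exact_mod_cast hij) hδ.le))
      (fun i => hW.past_le) hBBmeas hBdisj (fun i S hS => by
        have : (i : ℝ) * δ ≤ ((i + 1 : ℕ) : ℝ) * δ := by push_cast; nlinarith only [hδ]
        exact MM_super h0 hW z (by (clear * - hδ; positivity)) this hS)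
    simp only [univ_inter, Nat.cast_zero, zero_mul] at hop
    refine hop.trans ?_
    calc ∫⁻ ω in Set.univ, ENNReal.ofReal (St (MM κ) (fun v => W v ω) z 0) ∂P
        ≤ ∫⁻ _ in Set.univ, ENNReal.ofReal (Real.exp (-xx κ * Real.log z.im)) ∂P := by
          refine lintegral_mono fun ω => ENNReal.ofReal_le_ofReal ?_
          rw [St_of_mem (dom_zero.2 hzpos), Uf_zero, MM]
          refine mul_le_of_le_one_right (Real.exp_pos _).le ?_
          refine Real.rpow_le_one ?_ (sn_le_one _) (be_nonneg h0 (by linarith only [h4]))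
          exact (sn_pos (Zf_im_pos le_rfl (dom_zero.2 hzpos))).le
      _ = ENNReal.ofReal (Real.exp (-xx κ * Real.log z.im)) := by simp only [Measure.restrict_univ, neg_mul, lintegral_const, measure_univ, mul_one]
  calc _ ≤ ∑ l ∈ Finset.range (N + 1), (ENNReal.ofReal (∏ j ∈ Finset.range K, (1 - p j)) *
        ∫⁻ ω in BB l, ENNReal.ofReal (St (MM κ) (fun v => W v ω) z (l * δ)) ∂P +
      ENNReal.ofReal (K * (η / (K + 1))) * P (BB l)) := hdec.trans (Finset.sum_le_sum hI)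
    _ = ENNReal.ofReal (∏ j ∈ Finset.range K, (1 - p j)) * (∑ l ∈ Finset.range (N + 1),
        ∫⁻ ω in BB l, ENNReal.ofReal (St (MM κ) (fun v => W v ω) z (l * δ)) ∂P) +
      ENNReal.ofReal (K * (η / (K + 1))) * ∑ l ∈ Finset.range (N + 1), P (BB l) := by
        rw [Finset.sum_add_distrib, Finset.mul_sum, Finset.mul_sum]
    _ ≤ ENNReal.ofReal (∏ j ∈ Finset.range K, (1 - p j)) * ENNReal.ofReal (Real.exp (-xx κ * Real.log z.im)) +
      ENNReal.ofReal (K * (η / (K + 1))) * 1 := by (clear * - hopt hsum; gcongr)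
    _ ≤ ENNReal.ofReal (∏ j ∈ Finset.range K, (1 - p j)) * ENNReal.ofReal (Real.exp (-xx κ * Real.log z.im)) +
      ENNReal.ofReal η := by
        rw [mul_one]
        gcongr
        rw [mul_div_assoc', div_le_iff₀ (by (clear * -; positivity))]
        nlinarith only [hη]

/-- The probability of a bad cell. -/
theorem bad_cellV {κ : ℝ} (h0 : 0 < κ) (h8 : κ < 8) :
    ∃ b C R₀ D : ℝ, 1 ≤ b ∧ 1 ≤ C ∧ 1 ≤ R₀ ∧ 0 < D ∧
      ∀ {Ω : Type*} [MeasurableSpace Ω] {P : Measure Ω} {W : ℝ → Ω → ℝ} (_ : IsDrv κ P W)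
      {z : ℂ} {T u₀ ε θ : ℝ} {R : ℕ → ℝ} {K : ℕ} (_ : 0 < T) (_ : 1 / 4 ≤ z.im)
      (_ : C * Real.exp u₀ < 1 / 4) (_ : ∀ k, R₀ ≤ R k)
      (_ : 0 < ε) (_ : ∀ k < K, ε ≤ Real.exp (u₀ - b * K) / (C * R k)) (_ : 0 < θ),
      P ({ω | ∃ t ∈ Icc 0 T, z ∈ loewnerDomain (fun v => W v ω) t ∧
          Uf (fun v => W v ω) z t < u₀ - b * K - 1} ∩
          ⋂ k ∈ Finset.range K, NG κ C (R k) ε (u₀ - b * k) W z T) ≤
        ENNReal.ofReal (Real.exp (xx κ * (u₀ - b * K)) *
          (D * (θ ^ (-be κ) * ∏ k ∈ Finset.range K, (1 - Real.exp (-C * R k ^ 2) / C) +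
            θ ^ pa κ))) := by
  obtain ⟨b, C, R0, hb, hC, hR0, hI⟩ := iterate_scalesV h0 h8
  obtain ⟨Cs, hCs, hsa⟩ := small_angle h0 h8
  obtain ⟨Ca, hCa, hap⟩ := approach_sharp h0 h8
  have hC0 : 0 < C := by linarith only [hC]
  refine ⟨b, C, R0, 4 + 4 * Cs * Ca, hb, hC, hR0, by positivity, ?_⟩
  intro Ω _ P W hW z T u₀ ε θ R K hT hz1 hCu hR hε hεle hθ
  have hprob := hW.prob
  have hx0 := xx_pos h8
  have hx1 : xx κ ≤ 1 := by unfold xx; linarith only [h0]
  have himp : 0 < z.im := by linarith only [hz1]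
  have hbk : ∀ k : ℕ, C * Real.exp (u₀ - b * k) < z.im := by
    intro k
    have h1 : Real.exp (u₀ - b * k) ≤ Real.exp u₀ :=
      Real.exp_le_exp.2 (by have : 0 ≤ b * k := by positivity
                            linarith only [this])
    have h2 := mul_le_mul_of_nonneg_left h1 hC0.le
    linarith only [h2, hCu, hz1]
  have hlogu : u₀ - b * K < Real.log z.im := by
    rw [Real.lt_log_iff_exp_lt himp]
    exact lt_of_le_of_lt (le_mul_of_one_le_left (Real.exp_pos _).le hC) (hbk K)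
  have hpow4 : Real.exp (-xx κ * Real.log z.im) ≤ 4 := by
    have h1 : -Real.log 4 ≤ Real.log z.im := by
      rw [← Real.log_inv]
      apply Real.log_le_log (by norm_num)
      linarith only [hz1]
    have h2 : -xx κ * Real.log z.im ≤ Real.log 4 := by
      have : 0 < Real.log 4 := Real.log_pos (by norm_num)
      nlinarith only [hx0, h1, hx1, this]
    calc Real.exp (-xx κ * Real.log z.im) ≤ Real.exp (Real.log 4) := Real.exp_le_exp.2 h2
      _ = 4 := Real.exp_log (by norm_num)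
  have hRpos : ∀ k, 0 < R k := fun k => by linarith only [hR0, hR k]
  obtain ⟨Q, hQ⟩ : ∃ Q : ℝ, Q = ∏ k ∈ Finset.range K, (1 - Real.exp (-C * R k ^ 2) / C) :=
    ⟨_, rfl⟩
  have hQ0 : 0 ≤ Q := by
    rw [hQ]
    exact Finset.prod_nonneg fun k _ => (badCell_q (R := R k) hC le_rfl).1
  rw [← hQ]
  have hGm : ∀ s t, 0 ≤ s → s ≤ t → (⋂ k ∈ Finset.range K, NG κ C (R k) ε (u₀ - b * k) W z t) ⊆
      ⋂ k ∈ Finset.range K, NG κ C (R k) ε (u₀ - b * k) W z s := by
    intro s t hs hst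
    exact iInter₂_mono fun k _ =>
      badCell_NG h0 h8 hε hC0 le_rfl (hRpos k).le hW.cont (hbk k) hs hst
  obtain ⟨u, hu⟩ : ∃ u : ℝ, u = u₀ - b * K := ⟨_, rfl⟩
  have key : ∀ η : ℝ, 0 < η →
      P ({ω | ∃ t ∈ Icc 0 T, z ∈ loewnerDomain (fun v => W v ω) t ∧
          Uf (fun v => W v ω) z t < u₀ - b * K - 1} ∩
          ⋂ k ∈ Finset.range K, NG κ C (R k) ε (u₀ - b * k) W z T) ≤
        ENNReal.ofReal η + (ENNReal.ofReal (1 / (Real.exp (-xx κ * (u₀ - b * K)) * θ ^ be κ)) *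
          (ENNReal.ofReal Q *
            ENNReal.ofReal (Real.exp (-xx κ * Real.log z.im)) + ENNReal.ofReal η) +
          ENNReal.ofReal (Cs * θ ^ pa κ) * ENNReal.ofReal (Ca *
            Real.exp (xx κ * (u₀ - b * K - Real.log z.im)))) := by
    intro η hη
    refine BadCell_main h0 h8 hW hT hlogu hθ hGm ?_ ?_ ?_ ?_
    · intro ϰ hϰ
      rw [hQ]
      exact hI hW (z := z) (T := T) (u₀ := u₀) (R := R) (ε := ε)
        (ϰ := ϰ) (η := η) (K := K) hT (by linarith only [hCu, hz1]) hR hε hεle hϰ hη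
    · intro s hs A hA hA2 S hS
      exact hsa hW hs hθ.le hA hA2 S hS
    · intro S hS
      exact hap hW himp (u₀ - b * K) S hS
    · exact nk_limit h0 hW himp (u₀ - b * K - 1) hT hη
  rw [← hu] at key ⊢
  have hA1eq : 1 / (Real.exp (-xx κ * u) * θ ^ be κ) = Real.exp (xx κ * u) * θ ^ (-be κ) := by
    rw [Real.rpow_neg hθ.le, one_div, mul_inv, ← Real.exp_neg]
    ring_nf
  have hF : ENNReal.ofReal (1 / (Real.exp (-xx κ * u) * θ ^ be κ)) *
      (ENNReal.ofReal Q * ENNReal.ofReal (Real.exp (-xx κ * Real.log z.im))) +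
      ENNReal.ofReal (Cs * θ ^ pa κ) * ENNReal.ofReal (Ca * Real.exp (xx κ * (u - Real.log z.im))) ≤
      ENNReal.ofReal (Real.exp (xx κ * u) * ((4 + 4 * Cs * Ca) * (θ ^ (-be κ) * Q + θ ^ pa κ))) := by
    have hCa0 : 0 < Ca := by linarith only [hCa]
    rw [← ENNReal.ofReal_mul hQ0, ← ENNReal.ofReal_mul (by positivity),
      ← ENNReal.ofReal_mul (by positivity), ← ENNReal.ofReal_add (by positivity) (by positivity)]
    apply ENNReal.ofReal_le_ofReal
    have e1 : Real.exp (xx κ * (u - Real.log z.im)) =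
        Real.exp (xx κ * u) * Real.exp (-xx κ * Real.log z.im) := by
      rw [← Real.exp_add]; congr 1; ring
    rw [hA1eq, e1]
    obtain ⟨E, hE⟩ : ∃ E, E = Real.exp (xx κ * u) := ⟨_, rfl⟩
    obtain ⟨F, hF⟩ : ∃ F, F = Real.exp (-xx κ * Real.log z.im) := ⟨_, rfl⟩
    obtain ⟨a, ha⟩ : ∃ a, a = θ ^ (-be κ) := ⟨_, rfl⟩
    obtain ⟨τ, hτ⟩ : ∃ τ, τ = θ ^ pa κ := ⟨_, rfl⟩
    have hE0 : 0 < E := by rw [hE]; positivity
    have ha0 : 0 < a := by rw [ha]; positivity
    have hτ0 : 0 < τ := by rw [hτ]; positivity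
    rw [← hF] at hpow4
    rw [← hE, ← hF, ← ha, ← hτ]
    have g1 : E * a * (Q * F) ≤ E * a * (Q * 4) := by gcongr
    have g2 : Cs * τ * (Ca * (E * F)) ≤ Cs * τ * (Ca * (E * 4)) := by gcongr
    have g3 : 0 ≤ E * (4 * Cs * Ca * (a * Q)) := by positivity
    have g4 : 0 ≤ E * (4 * τ) := by positivity
    have g5 : E * ((4 + 4 * Cs * Ca) * (a * Q + τ)) = E * a * (Q * 4) + Cs * τ * (Ca * (E * 4)) +
        E * (4 * Cs * Ca * (a * Q)) + E * (4 * τ) := by ring
    linarith only [g1, g2, g3, g4, g5]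
  refine ENNReal.le_of_forall_pos_le_add fun e he _ => ?_
  obtain ⟨A1, hA1, hA1pos⟩ : ∃ A1 : ℝ, A1 = 1 / (Real.exp (-xx κ * u) * θ ^ be κ) ∧
    0 < A1 := ⟨_, rfl, by positivity⟩
  rw [← hA1] at key hF
  have he' : (0 : ℝ) < e := he
  have hηpos : (0 : ℝ) < e / (1 + A1) := by (clear * - he hA1pos; positivity)
  refine (key _ hηpos).trans ?_
  have he2 : ENNReal.ofReal (e / (1 + A1)) + ENNReal.ofReal A1 * ENNReal.ofReal (e / (1 + A1)) =
      e := by
    rw [← ENNReal.ofReal_mul hA1pos.le, ← ENNReal.ofReal_add hηpos.le (by (clear * - hA1pos he; positivity))]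
    have : (e : ℝ) / (1 + A1) + A1 * (e / (1 + A1)) = e := by
      (clear * - hA1pos he; field_simp)
    rw [this, ENNReal.ofReal_coe_nnreal]
  rw [mul_add, ← he2]
  refine le_trans (le_of_eq ?_) (add_le_add_left hF _)
  ring

/-- Deterministic covering estimate. `uf` is the finest scale, `u₀ - b k` the scales used. -/
theorem coverV {κ : ℝ} (h0 : 0 < κ) (h4 : κ < 8) {b C : ℝ} (hb : 1 ≤ b) (hC : 1 ≤ C) :
    ∃ C' : ℝ, 1 ≤ C' ∧ ∀ {h : ℝ → ℝ} (_ : IsGauge h) {W : ℝ → ℝ} {γ : ℝ → ℂ} (_ : Continuous W)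
      (_ : IsTrace W γ) {a T u₀ ε Ch : ℝ} {R : ℕ → ℝ} {K : ℕ} (_ : 0 < T)
      (_ : C' * Real.exp u₀ ≤ 1 / 100) (_ : 0 < ε) (_ : 0 < Ch)
      (_ : ∀ k < K, h (10 * C * Real.exp (u₀ - b * k)) ≤
        Ch * R k ^ xx κ * (10 * C * Real.exp (u₀ - b * k)) ^ dd κ),
      pre h (C' * Real.exp u₀) (γ '' Icc 0 T ∩ closedBall (ctr a) (3 / 5)) ≤
        ENNReal.ofReal (C' * Ch * mu κ ε W (ball (ctr a) (3 / 4)) 0 T) +
        ({z ∈ lattA a (Real.exp (u₀ - b * K - 1) / 20) |
          (∃ t ∈ Icc 0 T, z ∈ loewnerDomain W t ∧ Uf W z t < u₀ - b * K - 1) ∧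
          ∀ k < K, mu κ ε W (ball z (C * Real.exp (u₀ - b * k))) 0 T <
            R k ^ xx κ * Real.exp (dd κ * (u₀ - b * k)) / C}).encard *
          ENNReal.ofReal (h (Real.exp (u₀ - b * K))) := by
  classical
  set D : ℝ := C * (10 * C) ^ dd κ with hD
  have hC0 : 0 < C := by linarith
  have hD0 : 0 < D := by (clear * - hC; positivity)
  refine ⟨10 * C + D, by linarith only [hC, hD0], ?_⟩
  intro h hh W γ hW hγ a T u₀ ε Ch R K hT hu₀ hε hCh hhr
  set uK : ℝ := u₀ - b * K with huK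
  set e : ℝ := Real.exp (uK - 1) / 20 with he
  have he0 : 0 < e := by positivity
  have hKnn : (0 : ℝ) ≤ K := Nat.cast_nonneg _
  have huK0 : uK ≤ u₀ := by
    rw [huK]
    nlinarith only [hb]
  have hexpK : Real.exp uK ≤ Real.exp u₀ := Real.exp_le_exp.2 huK0
  have hexp1 : Real.exp (uK - 1) ≤ Real.exp uK := Real.exp_le_exp.2 (by linarith only [])
  have hexppos : 0 < Real.exp u₀ := Real.exp_pos _
  have hsmall : 10 * C * Real.exp u₀ ≤ 1 / 100 := by
    have : 0 < D * Real.exp u₀ := by positivity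
    linarith only [hu₀, this]
  have hsmall1 : Real.exp u₀ ≤ 1 / 1000 := by
    have : Real.exp u₀ ≤ C * Real.exp u₀ := le_mul_of_one_le_left hexppos.le hC
    (clear * - hsmall this; linarith)
  have he1 : e ≤ 1 / 10 := by
    rw [he]
    linarith only [hexpK, hexp1, hsmall1]
  have heK : e ≤ Real.exp uK := by
    rw [he]
    (clear * - he he0 hexp1; linarith [Real.exp_pos uK])
  -- the bad and the good lattice points
  set Λ : Set ℂ := lattA a e with hΛ
  have hΛf : Λ.Finite := lattA_finite a he0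
  set Bad : Set ℂ := {z ∈ Λ |
          (∃ t ∈ Icc 0 T, z ∈ loewnerDomain W t ∧ Uf W z t < uK - 1) ∧
          ∀ k < K, mu κ ε W (ball z (C * Real.exp (u₀ - b * k))) 0 T <
            R k ^ xx κ * Real.exp (dd κ * (u₀ - b * k)) / C} with hBad
  have hBadf : Bad.Finite := hΛf.subset fun z hz => hz.1
  set Gd : Set ℂ := {z ∈ Λ | ∃ k < K, R k ^ xx κ * Real.exp (dd κ * (u₀ - b * k)) / C ≤
    mu κ ε W (ball z (C * Real.exp (u₀ - b * k))) 0 T} with hGd
  have hGdf : Gd.Finite := hΛf.subset fun z hz => hz.1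
  have hk : ∀ z : ℂ, ∃ k : ℕ, z ∈ Gd → k < K ∧ R k ^ xx κ * Real.exp (dd κ * (u₀ - b * k)) / C ≤
    mu κ ε W (ball z (C * Real.exp (u₀ - b * k))) 0 T := by
    intro z
    by_cases hz : z ∈ Gd
    · obtain ⟨k, hk1, hk2⟩ := hz.2
      exact ⟨k, fun _ => ⟨hk1, hk2⟩⟩
    · exact ⟨0, fun hz' => absurd hz' hz⟩
  choose k hk using hk
  set ρ : ℂ → ℝ := fun z => C * Real.exp (u₀ - b * k z) with hρ
  have hρ0 : ∀ z, 0 < ρ z := fun z => by
    show 0 < C * Real.exp (u₀ - b * k z)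
    positivity
  have hρle : ∀ z, ρ z ≤ C * Real.exp u₀ := by
    intro z
    show C * Real.exp (u₀ - b * k z) ≤ C * Real.exp u₀
    have h1 : (0 : ℝ) ≤ k z := Nat.cast_nonneg _
    have h2 : u₀ - b * k z ≤ u₀ := by nlinarith only [hb]
    have := Real.exp_le_exp.2 h2
    (clear * - this hC; gcongr)
  have hρge : ∀ z ∈ Gd, Real.exp uK ≤ ρ z := by
    intro z hz
    show Real.exp uK ≤ C * Real.exp (u₀ - b * k z)
    have h1 : (k z : ℝ) ≤ K := by exact_mod_cast (hk z hz).1.le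
    have h2 : uK ≤ u₀ - b * k z := by
      rw [huK]
      nlinarith only [h1, hb]
    calc Real.exp uK ≤ Real.exp (u₀ - b * k z) := Real.exp_le_exp.2 h2
      _ ≤ C * Real.exp (u₀ - b * k z) := le_mul_of_one_le_left (Real.exp_pos _).le hC
  -- Vitali
  obtain ⟨V, hVG, hVd, hVc⟩ := Vitali.exists_disjoint_subfamily_covering_enlargement_closedBall Gd
    (fun z : ℂ => z) ρ (C * Real.exp u₀) (fun z _ => hρle z) 5 (by norm_num)
  have hVf : V.Finite := hGdf.subset hVG
  have hδ0 : 0 ≤ (10 * C + D) * Real.exp u₀ := by positivity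
  have hpre := cover_two_families hh hδ0 (E := γ '' Icc 0 T ∩ closedBall (ctr a) (3 / 5))
    hVf.toFinset hBadf.toFinset (fun z => 5 * ρ z) (fun _ => e) (fun z _ => by
      have := hρ0 z
      positivity) (fun _ _ => he0.le) (fun z _ => by
      have h1 := hρle z
      have h2 : 0 < D * Real.exp u₀ := by positivity
      have h3 : (10 * C + D) * Real.exp u₀ = 10 * (C * Real.exp u₀) + D * Real.exp u₀ := by ring
      rw [h3]
      linarith only [h1, h2]) (fun _ _ => by
      have h2 : 0 < D * Real.exp u₀ := by positivity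
      have h3 : (10 * C + D) * Real.exp u₀ = 10 * (C * Real.exp u₀) + D * Real.exp u₀ := by ring
      have h5 : Real.exp u₀ ≤ C * Real.exp u₀ := le_mul_of_one_le_left hexppos.le hC
      rw [h3]
      linarith only [he, he0, hexpK, hexp1, h2, h5]) (by
      rintro p ⟨hpγ, hpI⟩
      rw [mem_closedBall] at hpI
      obtain ⟨z, hz, hpz⟩ := lattA_near he0 he1 hpI
      have hU : ∃ t ∈ Icc 0 T, z ∈ loewnerDomain W t ∧ Uf W z t < uK - 1 := by
        refine cover_near hW hγ hT hpγ ?_ hpz ?_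
        · have h1 := lattA_im hz
          have h2 : Real.exp (uK - 1) ≤ 1 / 10 := by linarith only [hexpK, hexp1, hsmall1]
          linarith only [hexpK, hexp1, hsmall1, h1]
        · rw [he]
          linarith only [he, he0]
      by_cases hzG : z ∈ Gd
      · left
        obtain ⟨z', hz', hsub⟩ := hVc z hzG
        refine ⟨z', hVf.mem_toFinset.2 hz', hsub ?_⟩
        rw [mem_closedBall]
        exact hpz.trans (heK.trans (hρge z hzG))
      · right
        refine ⟨z, hBadf.mem_toFinset.2 ⟨hz, hU, fun k hkK => ?_⟩, mem_closedBall.2 hpz⟩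
        by_contra hcon
        push Not at hcon
        exact hzG ⟨hz, k, hkK, hcon⟩)
  refine hpre.trans (add_le_add ?_ ?_)
  · -- the good part
    have hdd0 : 0 < dd κ := by unfold dd; linarith only [h0]
    have hterm : ∀ z ∈ hVf.toFinset, h (2 * (5 * ρ z)) ≤
        D * Ch * mu κ ε W (ball z (ρ z)) 0 T := by
      intro z hz
      have hzG : z ∈ Gd := hVG (hVf.mem_toFinset.1 hz)
      have h1 := (hk z hzG).2
      have h2 := hhr (k z) (hk z hzG).1
      have e0 : 10 * C * Real.exp (u₀ - b * k z) = 2 * (5 * ρ z) := by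
        show _ = 2 * (5 * (C * Real.exp (u₀ - b * k z)))
        ring
      rw [e0] at h2
      refine h2.trans ?_
      have e1 : (2 * (5 * ρ z)) ^ dd κ = (10 * C) ^ dd κ * Real.exp (dd κ * (u₀ - b * k z)) := by
        have : 2 * (5 * ρ z) = (10 * C) * Real.exp (u₀ - b * k z) := by
          show 2 * (5 * (C * Real.exp (u₀ - b * k z))) = _
          ring
        rw [this, Real.mul_rpow (by positivity) (Real.exp_pos _).le, ← Real.exp_mul]
        congr 2
        ring
      rw [e1]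
      have h5 : R (k z) ^ xx κ * Real.exp (dd κ * (u₀ - b * k z)) ≤
          C * mu κ ε W (ball z (ρ z)) 0 T := by
        rw [div_le_iff₀ hC0] at h1
        calc R (k z) ^ xx κ * Real.exp (dd κ * (u₀ - b * k z)) ≤ _ := h1
          _ = C * mu κ ε W (ball z (ρ z)) 0 T := mul_comm _ _
      calc Ch * R (k z) ^ xx κ * ((10 * C) ^ dd κ * Real.exp (dd κ * (u₀ - b * k z)))
          = Ch * (10 * C) ^ dd κ * (R (k z) ^ xx κ * Real.exp (dd κ * (u₀ - b * k z))) := by ring
        _ ≤ Ch * (10 * C) ^ dd κ * (C * mu κ ε W (ball z (ρ z)) 0 T) := by (clear * - h5 hCh hC; gcongr)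
        _ = D * Ch * mu κ ε W (ball z (ρ z)) 0 T := by rw [hD]; ring
    have hmu0 : ∀ z, 0 ≤ mu κ ε W (ball z (ρ z)) 0 T := fun z => mu_nonneg le_rfl hT.le
    have hballsub : ∀ z ∈ hVf.toFinset, ball z (ρ z) ⊆ ball (ctr a) (3 / 4) := by
      intro z hz
      have hzΛ : z ∈ Λ := (hVG (hVf.mem_toFinset.1 hz)).1
      refine ball_subset_ball' ?_
      have h1 : dist z (ctr a) ≤ 7 / 10 := lattA_dist hzΛ
      have h2 := hρle z
      linarith only [hsmall, h1, h2]
    have him : ∀ z ∈ ball (ctr a) (3 / 4), 0 < z.im := by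
      intro z hz
      rw [mem_ball, dist_eq_norm] at hz
      have h1 := (Complex.abs_im_le_norm (z - (ctr a))).trans hz.le
      rw [Complex.sub_im, ctr_im, abs_le] at h1
      linarith only [h1]
    have hint : IntegrableOn (fun z => yc κ ε W z 0 T) (ball (ctr a) (3 / 4)) :=
      yc_integrableOn h0 (by linarith only [h4]) hε hW measurableSet_ball him measure_ball_lt_top.ne
        le_rfl hT.le
    have hsum : ∑ z ∈ hVf.toFinset, mu κ ε W (ball z (ρ z)) 0 T ≤
        mu κ ε W (ball (ctr a) (3 / 4)) 0 T := by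
      unfold mu
      rw [← integral_biUnion_finset (f := fun z => yc κ ε W z 0 T) (μ := volume) hVf.toFinset
        (s := fun z => ball z (ρ z)) (fun _ _ => measurableSet_ball) ?_
        (fun z hz => hint.mono_set (hballsub z hz))]
      · refine setIntegral_mono_set hint (Eventually.of_forall fun z => yc_nonneg le_rfl hT.le) ?_
        refine HasSubset.Subset.eventuallyLE ?_
        exact iUnion₂_subset hballsub
      · intro x hx y hy hxy
        have hx' : x ∈ V := hVf.mem_toFinset.1 hx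
        have hy' : y ∈ V := hVf.mem_toFinset.1 hy
        exact (hVd hx' hy' hxy).mono ball_subset_closedBall ball_subset_closedBall
    calc ∑ z ∈ hVf.toFinset, ENNReal.ofReal (h (2 * (5 * ρ z)))
        ≤ ∑ z ∈ hVf.toFinset, ENNReal.ofReal (D * Ch * mu κ ε W (ball z (ρ z)) 0 T) :=
          Finset.sum_le_sum fun z hz => ENNReal.ofReal_le_ofReal (hterm z hz)
      _ = ENNReal.ofReal (∑ z ∈ hVf.toFinset, D * Ch * mu κ ε W (ball z (ρ z)) 0 T) :=
          (ENNReal.ofReal_sum_of_nonneg fun z _ => by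
            have := hmu0 z
            (clear * - hC hCh this; positivity)).symm
      _ ≤ ENNReal.ofReal ((10 * C + D) * Ch * mu κ ε W (ball (ctr a) (3 / 4)) 0 T) := by
          refine ENNReal.ofReal_le_ofReal ?_
          rw [← Finset.mul_sum]
          have h6 : 0 ≤ mu κ ε W (ball (ctr a) (3 / 4)) 0 T := mu_nonneg le_rfl hT.le
          calc D * Ch * ∑ z ∈ hVf.toFinset, mu κ ε W (ball z (ρ z)) 0 T
              ≤ D * Ch * mu κ ε W (ball (ctr a) (3 / 4)) 0 T := by (clear * - hVf hsum hC hCh; gcongr)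
            _ ≤ (10 * C + D) * Ch * mu κ ε W (ball (ctr a) (3 / 4)) 0 T := by
                gcongr
                linarith only [hC]
  · -- the bad part
    rw [hBadf.encard_eq_coe_toFinset_card, ENat.toENNReal_coe, Finset.sum_const, nsmul_eq_mul]
    gcongr
    refine hh.mono (mem_Ici.2 (by positivity)) (mem_Ici.2 (Real.exp_pos _).le) ?_
    rw [he]
    linarith only [he, he0, hexp1]

end Vale.Agent.P164.E8
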