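import Vale.Agent.N164.Sharp

set_option linter.all false

/-!
# Positivity of all segments for a general gauge, with a threshold depending on the scale
-/

namespace Vale.Agent.P164.E8

open Set Metric Filter Topology MeasureTheory ProbabilityTheory
open scoped NNReal ENNReal

/-- The good event for a general gauge `k`. -/
def GoodEvK (κ : ℝ) (k : ℝ → ℝ) (c₁ C₃ δ₀ ε : ℝ) (W : ℝ → ℝ) (T : ℝ) : Prop :=
  ∃ Ub : Set ℂ, MeasurableSet Ub ∧
    mu κ ε W (ball Complex.I (1 / 2) ∩ Ub) 0 T ≤ c₁ / 2 ∧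
    c₁ ≤ mu κ ε W (ball Complex.I (1 / 2)) 0 T ∧
    ∀ S : Set ℂ, MeasurableSet S → Bornology.IsBounded S → √ε ≤ diam S → diam S ≤ δ₀ →
      (S ∩ ball Complex.I (1 / 2) ⊆ Ub ∨
        mu κ ε W (S ∩ ball Complex.I (1 / 2)) 0 T ≤ C₃ * k (diam S))

/-- The bad balls for the thresholds `A m`. -/
noncomputable def geBadK (κ ε : ℝ) (A : ℕ → ℝ) (T : ℝ) (m0 N : ℕ) (W : ℝ → ℝ) :
    Finset (Σ _ : ℕ, ℤ × ℤ) :=
  (geF8 ε m0 N).filter (fun x => A x.1 ≤ mu κ ε W (geB x) 0 T)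

theorem ge_detK {κ ε T c₁ C₃ : ℝ} (h0 : 0 < κ) (h8 : κ < 8) (hε : 0 < ε) (hT : 0 ≤ T)
    (hc₁ : 0 < c₁) (hC₃ : 0 < C₃) {k : ℝ → ℝ} (hk : IsGauge k) {A : ℕ → ℝ}
    (hA : ∀ m, A m ≤ C₃ * k (geRho m / 4))
    {W : ℝ → ℝ} (hW : Continuous W) {m0 N : ℕ}
    (hm0 : 7 ≤ m0) (hN : ∀ m ≥ N, geRho m < 2 * √ε)
    (hsum : ∑ x ∈ geBadK κ ε A T m0 N W, ENNReal.ofReal (mu κ ε W (geB x) 0 T) ≤
      ENNReal.ofReal (c₁ / 2))
    (hmass : c₁ ≤ mu κ ε W (ball Complex.I (1 / 2)) 0 T) :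
    GoodEvK κ k c₁ C₃ (geRho (m0 + 2)) ε W T := by
  classical
  have hmem : ∀ x ∈ geBadK κ ε A T m0 N W, x ∈ geF8 ε m0 N ∧
      A x.1 ≤ mu κ ε W (geB x) 0 T := fun x hx => by
    unfold geBadK at hx
    exact Finset.mem_filter.1 hx
  refine ⟨⋃ x ∈ geBadK κ ε A T m0 N W, geB x, ?_, ?_, hmass, ?_⟩
  · exact Finset.measurableSet_biUnion _ fun x _ => measurableSet_ball
  · have h1 := ge_mu_le_sum (κ := κ) (r := ε) (T := T) h0 h8 hε hW hT
      (geBadK κ ε A T m0 N W) geB (fun x _ => measurableSet_ball)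
      (fun x hx w hw => ge_im_pos (by have := (lowGood_geF8_mem.1 (hmem x hx).1).1.1; omega)
        (lowGood_geF8_mem.1 (hmem x hx).1).2 hw)
      (fun x _ => measure_ball_lt_top.ne)
      (A := ball Complex.I (1 / 2) ∩ ⋃ x ∈ geBadK κ ε A T m0 N W, geB x)
      (measurableSet_ball.inter (Finset.measurableSet_biUnion _ fun x _ => measurableSet_ball))
      inter_subset_right
    exact (ENNReal.ofReal_le_ofReal_iff (by positivity)).1 (h1.trans hsum)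
  · intro S hS hSb hεS hSd
    have hd0 : 0 < diam S := (Real.sqrt_pos.2 hε).trans_le hεS
    by_cases hne : (S ∩ ball Complex.I (1 / 2)).Nonempty
    swap
    · left
      rw [not_nonempty_iff_eq_empty.1 hne]
      exact empty_subset _
    obtain ⟨p, hpS, hpB⟩ := hne
    obtain ⟨n, hn1, hn2⟩ := exists_nat_pow_near_of_lt_one hd0
      (hSd.trans (by unfold geRho; exact pow_le_one₀ (by norm_num) (by norm_num)))
      (show (0 : ℝ) < 1 / 2 by norm_num) (show (1 / 2 : ℝ) < 1 by norm_num)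
    have hnm : m0 + 2 < n + 1 := by
      by_contra hcon
      push Not at hcon
      have h1 : ((1 : ℝ) / 2) ^ (m0 + 2) ≤ (1 / 2) ^ (n + 1) :=
        pow_le_pow_of_le_one (by norm_num) (by norm_num) hcon
      have h2 : diam S ≤ (1 / 2) ^ (m0 + 2) := hSd
      linarith only [hn1, h1, h2]
    obtain ⟨m, rfl⟩ : ∃ m, n = m + 1 := ⟨n - 1, by (clear * - hm0 hnm; omega)⟩
    have hm : m0 < m := by omega
    have hm7 : 7 ≤ m := by omega
    have hs1 : geRho m / 4 < diam S := by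
      have : geRho m / 4 = (1 / 2) ^ (m + 1 + 1) := by unfold geRho; ring
      rw [this]; exact hn1
    have hs2 : diam S ≤ geRho m / 2 := by
      have : geRho m / 2 = (1 / 2) ^ (m + 1) := by unfold geRho; ring
      rw [this]; exact hn2
    obtain ⟨q, hq, hqd⟩ := ge_near (m := m) (by (clear * - hm7; omega)) (mem_ball.1 hpB)
    have hsub : S ⊆ ball (gePt m q) (geRho m) := by
      intro w hw
      have h1 := dist_le_diam_of_mem hSb hw hpS
      have h2 := dist_triangle w p (gePt m q)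
      rw [mem_ball]
      linarith only [hs2, hqd, h1, h2]
    have hbim : ∀ w ∈ ball (gePt m q) (geRho m), 0 < w.im := fun w hw =>
      ge_im_pos hm7 hq hw
    have hmono : mu κ ε W (S ∩ ball Complex.I (1 / 2)) 0 T ≤
        mu κ ε W (ball (gePt m q) (geRho m)) 0 T :=
      ge_mu_mono h0 h8 hε hW hT measurableSet_ball hbim measure_ball_lt_top.ne
        (inter_subset_left.trans hsub)
    have hb1 : A m ≤ C₃ * k (diam S) := by
      refine (hA m).trans (mul_le_mul_of_nonneg_left ?_ hC₃.le)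
      have hρ := geRho_pos m
      exact hk.mono (mem_Ici.2 (by positivity)) (mem_Ici.2 hd0.le) hs1.le
    have hcase : 2 * √ε ≤ geRho m := by linarith only [hεS, hs2]
    by_cases hbad : A m ≤ mu κ ε W (geB ⟨m, q⟩) 0 T
    · left
      have hmN : m < N := by
        by_contra hcon
        push Not at hcon
        exact absurd (hN m hcon) (not_lt.2 hcase)
      have hx : (⟨m, q⟩ : Σ _ : ℕ, ℤ × ℤ) ∈ geBadK κ ε A T m0 N W := by
        unfold geBadK
        exact Finset.mem_filter.2 ⟨lowGood_geF8_mem.2 ⟨⟨hm, hmN, hcase⟩, hq⟩, hbad⟩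
      intro w hw
      exact mem_iUnion₂.2 ⟨⟨m, q⟩, hx, hsub hw.1⟩
    · right
      push Not at hbad
      have h3 : mu κ ε W (ball (gePt m q) (geRho m)) 0 T < A m := hbad
      linarith only [hmono, hb1, h3]

/-- The sum of the errors over the scales. -/
theorem ge_sumK {c C : ℝ} (hc : 0 < c) (hC : 0 < C) {R : ℕ → ℝ} (hR0 : ∀ m, 0 ≤ R m)
    (hRm : ∀ m, R m ≤ m) (hRs : Summable fun m => Real.exp (-c * R m ^ 2)) {a : ℝ} (ha : 0 < a) :
    ∃ M : ℕ, ∀ m0 N : ℕ, M ≤ m0 → ∀ ε : ℝ, 0 < ε →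
      ∑ x ∈ geF8 ε m0 N, ENNReal.ofReal
        ((C * Real.exp (-c * R x.1 ^ 2) + C * R x.1 ^ C * (ε / geRho x.1) ^ c) *
          geRho x.1 ^ 2) ≤ ENNReal.ofReal a := by
  obtain ⟨g, hg⟩ : ∃ g : ℕ → ℝ, g = fun m => 25 * C * Real.exp (-c * R m ^ 2) +
      25 * C * ((m : ℝ) ^ ⌈C⌉₊ * ((1 / 2 : ℝ) ^ c) ^ m) := ⟨_, rfl⟩
  have hgs : Summable g := by
    have h0 : ‖(1 / 2 : ℝ) ^ c‖ < 1 := by
      rw [Real.norm_of_nonneg (by positivity)]
      exact Real.rpow_lt_one (by norm_num) (by norm_num) hc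
    have h2 : Summable (fun m : ℕ => (m : ℝ) ^ ⌈C⌉₊ * ((1 / 2 : ℝ) ^ c) ^ m) :=
      summable_pow_mul_geometric_of_norm_lt_one _ h0
    rw [hg]
    exact (hRs.mul_left (25 * C)).add (h2.mul_left (25 * C))
  have hpos : ∀ m : ℕ, 0 ≤ g m := fun m => by rw [hg]; positivity
  have hterm : ∀ ε : ℝ, 0 < ε → ∀ m : ℕ, 1 ≤ m → 2 * √ε ≤ geRho m →
      25 * 4 ^ m * ((C * Real.exp (-c * R m ^ 2) + C * R m ^ C * (ε / geRho m) ^ c) *
        geRho m ^ 2) ≤ g m := by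
    intro ε hε m hm h
    have hm1 : (1 : ℝ) ≤ m := by exact_mod_cast hm
    have hρ := geRho_pos m
    have e3 : R m ^ C ≤ (m : ℝ) ^ ⌈C⌉₊ := by
      calc R m ^ C ≤ (m : ℝ) ^ C := Real.rpow_le_rpow (hR0 m) (hRm m) hC.le
        _ ≤ (m : ℝ) ^ ⌈C⌉₊ := by
          rw [← Real.rpow_natCast]
          exact Real.rpow_le_rpow_of_exponent_le hm1 (Nat.le_ceil _)
    have e4 : (ε / geRho m) ^ c ≤ ((1 / 2 : ℝ) ^ c) ^ m := by
      have h1 : ε / geRho m ≤ geRho m := by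
        rw [div_le_iff₀ hρ]
        have h2 : √ε ≤ geRho m := by linarith only [h, hρ, Real.sqrt_nonneg ε]
        calc ε = √ε * √ε := (Real.mul_self_sqrt hε.le).symm
          _ ≤ geRho m * geRho m := mul_le_mul h2 h2 (Real.sqrt_nonneg _) hρ.le
      calc (ε / geRho m) ^ c ≤ (geRho m) ^ c := by
            apply Real.rpow_le_rpow (by positivity) h1 hc.le
        _ = ((1 / 2 : ℝ) ^ c) ^ m := by
            unfold geRho
            rw [← Real.rpow_natCast, ← Real.rpow_natCast, ← Real.rpow_mul (by norm_num),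
              ← Real.rpow_mul (by norm_num), mul_comm]
    have e5 : (4 : ℝ) ^ m * geRho m ^ 2 = 1 := by
      unfold geRho
      rw [← pow_mul, mul_comm m 2, pow_mul, ← mul_pow]
      norm_num
    have e6 : R m ^ C * (ε / geRho m) ^ c ≤ (m : ℝ) ^ ⌈C⌉₊ * ((1 / 2 : ℝ) ^ c) ^ m :=
      mul_le_mul e3 e4 (by positivity) (by positivity)
    calc 25 * 4 ^ m * ((C * Real.exp (-c * R m ^ 2) + C * R m ^ C * (ε / geRho m) ^ c) *
          geRho m ^ 2)
        = ((4 : ℝ) ^ m * geRho m ^ 2) * (25 * C * Real.exp (-c * R m ^ 2) +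
          25 * C * (R m ^ C * (ε / geRho m) ^ c)) := by ring
      _ = 25 * C * Real.exp (-c * R m ^ 2) + 25 * C * (R m ^ C * (ε / geRho m) ^ c) := by
          rw [e5, one_mul]
      _ ≤ g m := by
          rw [hg]
          have : 0 ≤ 25 * C := by positivity
          exact add_le_add le_rfl (mul_le_mul_of_nonneg_left e6 this)
  obtain ⟨s, hs⟩ := summable_iff_vanishing_norm.1 hgs a ha
  obtain ⟨M, hM⟩ : ∃ M : ℕ, ∀ i ∈ s, i < M := ⟨s.sup id + 1, fun i hi =>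
    Nat.lt_succ_of_le (Finset.le_sup (f := id) hi)⟩
  refine ⟨M, fun m0 N hm0 ε hε => ?_⟩
  set F := (Finset.Ioo m0 N).filter (fun m => 2 * √ε ≤ geRho m) with hF
  have hmem : ∀ m ∈ F, 1 ≤ m ∧ M ≤ m ∧ 2 * √ε ≤ geRho m := fun m hm => by
    rw [hF, Finset.mem_filter, Finset.mem_Ioo] at hm
    exact ⟨by omega, by omega, hm.2⟩
  calc ∑ x ∈ geF8 ε m0 N, ENNReal.ofReal
        ((C * Real.exp (-c * R x.1 ^ 2) + C * R x.1 ^ C * (ε / geRho x.1) ^ c) * geRho x.1 ^ 2)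
      = ∑ m ∈ F, ((geIdx m).card : ℝ≥0∞) * ENNReal.ofReal
        ((C * Real.exp (-c * R m ^ 2) + C * R m ^ C * (ε / geRho m) ^ c) * geRho m ^ 2) := by
        unfold geF8
        rw [Finset.sum_sigma]
        refine Finset.sum_congr rfl fun m _ => ?_
        dsimp only
        rw [Finset.sum_const, nsmul_eq_mul]
    _ ≤ ∑ m ∈ F, ENNReal.ofReal (g m) := by
        refine Finset.sum_le_sum fun m hm => ?_
        obtain ⟨h1, -, h3⟩ := hmem m hm
        rw [show ((geIdx m).card : ℝ≥0∞) = ENNReal.ofReal ((geIdx m).card : ℝ) by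
          simp only [ENNReal.ofReal_natCast], ← ENNReal.ofReal_mul (Nat.cast_nonneg _)]
        refine ENNReal.ofReal_le_ofReal (le_trans ?_ (hterm ε hε m h1 h3))
        refine mul_le_mul_of_nonneg_right (geIdx_card m) ?_
        have hρ := geRho_pos m
        have := hR0 m
        positivity
    _ = ENNReal.ofReal (∑ m ∈ F, g m) :=
        (ENNReal.ofReal_sum_of_nonneg fun m _ => hpos m).symm
    _ ≤ ENNReal.ofReal a := by
        refine ENNReal.ofReal_le_ofReal ?_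
        have hd : Disjoint F s := by
          rw [Finset.disjoint_left]
          intro m hm hms
          exact absurd (hM m hms) (not_lt.2 (hmem m hm).2.1)
        exact (le_abs_self _).trans (hs F hd).le

lemma LowK_sum_bad {κ ε T : ℝ} {A : ℕ → ℝ} {m0 N : ℕ} (W : ℝ → ℝ) :
    ∑ x ∈ geBadK κ ε A T m0 N W, ENNReal.ofReal (mu κ ε W (geB x) 0 T) =
      ∑ x ∈ geF8 ε m0 N, {y : ℝ | A x.1 ≤ y}.indicator ENNReal.ofReal
        (mu κ ε W (geB x) 0 T) := by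
  unfold geBadK
  rw [Finset.sum_filter]
  refine Finset.sum_congr rfl fun x _ => ?_
  by_cases h : A x.1 ≤ mu κ ε W (geB x) 0 T
  · rw [if_pos h, indicator_of_mem (by exact h)]
  · rw [if_neg h, indicator_of_notMem (by exact h)]

/-- The normalised size of the gauge at the scale `2^{-n}`. -/
noncomputable def uu (κ : ℝ) (k : ℝ → ℝ) (n : ℕ) : ℝ := k ((1 / 2) ^ n) / ((1 / 2) ^ n) ^ dd κ

lemma uu_pos (κ : ℝ) {k : ℝ → ℝ} (hk : IsGauge k) (n : ℕ) : 0 < uu κ k n := by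
  unfold uu
  have := hk.pos ((1 / 2) ^ n) (by positivity)
  positivity

/-- The radii `R m` for a gauge whose series converges. -/
lemma exists_radii {κ : ℝ} (h0 : 0 < κ) (h8 : κ < 8) {k : ℝ → ℝ} (hk : IsGauge k) {c₀ : ℝ}
    (hc₀ : 0 < c₀) (hs : Summable fun n => Real.exp (-c₀ * uu κ k n ^ (2 / xx κ))) {c : ℝ}
    (hc : 0 < c) : ∃ (R : ℕ → ℝ) (lam : ℝ), 0 < lam ∧ (∀ m, 0 ≤ R m) ∧ (∀ m, R m ≤ m) ∧
      (Summable fun m => Real.exp (-c * R m ^ 2)) ∧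
      ∀ m, R m ^ xx κ * geRho m ^ dd κ ≤ lam * k (geRho m / 4) := by
  have hx : 0 < xx κ := xx_pos h8
  obtain ⟨l, hl⟩ : ∃ l : ℝ, l = (c₀ / c) ^ (xx κ / 2) := ⟨_, rfl⟩
  have hl0 : 0 < l := by rw [hl]; positivity
  have hup := fun n => uu_pos κ hk n
  refine ⟨fun m => min ((l * uu κ k (m + 2)) ^ (1 / xx κ)) m, l * 4 ^ dd κ, by positivity,
    fun m => le_min (by have := hup (m + 2); positivity) (Nat.cast_nonneg m),
    fun m => min_le_right _ _, ?_, fun m => ?_⟩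
  · have h1 : Summable fun m : ℕ => Real.exp (-c₀ * uu κ k (m + 2) ^ (2 / xx κ)) :=
      (summable_nat_add_iff 2).2 hs
    have h2 : Summable fun m : ℕ => Real.exp (-c * m) := by
      have h3 := summable_geometric_of_lt_one (Real.exp_pos (-c)).le
        (Real.exp_lt_one_iff.2 (by linarith))
      refine h3.congr fun m => ?_
      rw [← Real.exp_nat_mul, mul_comm]
    refine Summable.of_nonneg_of_le (fun m => (Real.exp_pos _).le) (fun m => ?_) (h1.add h2)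
    have e1 := Real.exp_pos (-c₀ * uu κ k (m + 2) ^ (2 / xx κ))
    have e2 := Real.exp_pos (-c * m)
    dsimp only
    rcases min_cases ((l * uu κ k (m + 2)) ^ (1 / xx κ)) (m : ℝ) with h | h
    · rw [h.1]
      have hu := hup (m + 2)
      have e3 : ((l * uu κ k (m + 2)) ^ (1 / xx κ)) ^ 2 =
          c₀ / c * uu κ k (m + 2) ^ (2 / xx κ) := by
        rw [← Real.rpow_two, ← Real.rpow_mul (by positivity), Real.mul_rpow hl0.le hu.le, hl,
          ← Real.rpow_mul (by positivity)]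
        have a1 : xx κ / 2 * (1 / xx κ * 2) = 1 := by field_simp
        have a2 : 1 / xx κ * 2 = 2 / xx κ := by field_simp
        rw [a1, a2, Real.rpow_one]
      rw [e3]
      have e4 : -c * (c₀ / c * uu κ k (m + 2) ^ (2 / xx κ)) =
          -c₀ * uu κ k (m + 2) ^ (2 / xx κ) := by field_simp
      rw [e4]
      linarith
    · rw [h.1]
      have e3 : Real.exp (-c * (m : ℝ) ^ 2) ≤ Real.exp (-c * m) := by
        refine Real.exp_le_exp.2 ?_
        have : (m : ℝ) ≤ (m : ℝ) ^ 2 := by exact_mod_cast Nat.le_self_pow two_ne_zero m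
        nlinarith
      linarith
  · have hu := hup (m + 2)
    have hρ := geRho_pos m
    have e1 : (min ((l * uu κ k (m + 2)) ^ (1 / xx κ)) (m : ℝ)) ^ xx κ ≤ l * uu κ k (m + 2) := by
      calc (min ((l * uu κ k (m + 2)) ^ (1 / xx κ)) (m : ℝ)) ^ xx κ
          ≤ ((l * uu κ k (m + 2)) ^ (1 / xx κ)) ^ xx κ :=
            Real.rpow_le_rpow (le_min (by positivity) (Nat.cast_nonneg m)) (min_le_left _ _) hx.le
        _ = l * uu κ k (m + 2) := by
            rw [← Real.rpow_mul (by positivity), one_div_mul_cancel hx.ne', Real.rpow_one]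
    have e2 : ((1 : ℝ) / 2) ^ (m + 2) = geRho m / 4 := by unfold geRho; ring
    have e3 : uu κ k (m + 2) * geRho m ^ dd κ = 4 ^ dd κ * k (geRho m / 4) := by
      unfold uu
      rw [e2, Real.div_rpow hρ.le (by norm_num)]
      field_simp
    calc _ ≤ l * uu κ k (m + 2) * geRho m ^ dd κ := by gcongr
      _ = l * (uu κ k (m + 2) * geRho m ^ dd κ) := by ring
      _ = l * 4 ^ dd κ * k (geRho m / 4) := by rw [e3]; ring

theorem good_eventK {κ : ℝ} (h0 : 0 < κ) (h8 : κ < 8) {k : ℝ → ℝ} (hk : IsGauge k) {c₀ : ℝ}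
    (hc₀ : 0 < c₀) (hs : Summable fun n => Real.exp (-c₀ * uu κ k n ^ (2 / xx κ))) :
    ∃ c₁ C₃ δ₀ c₂ ε₀ : ℝ, 0 < c₁ ∧ 0 < C₃ ∧ 0 < δ₀ ∧ 0 < c₂ ∧ 0 < ε₀ ∧
      ∀ {Ω : Type*} [MeasurableSpace Ω] {P : Measure Ω} {W : ℝ → Ω → ℝ} (_ : IsDrv κ P W)
      {ε : ℝ} (_ : 0 < ε) (_ : ε ≤ ε₀),
      ∃ G : Set Ω, MeasurableSet[past W TT8] G ∧ ENNReal.ofReal c₂ ≤ P G ∧
        ∀ ω ∈ G, GoodEvK κ k c₁ C₃ δ₀ ε (fun u => W u ω) TT8 := by
  obtain ⟨c₁, c₂, ε₀, hc₁, hc₂, hε₀, hmass⟩ := mass_lower h0 h8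
  obtain ⟨c, C, R₀, hc, hC, hR₀, hdisc⟩ := disc_bad_sharp h0 h8
  have hx : 0 < xx κ := by unfold xx; linarith only [h8]
  have hT : 0 ≤ TT8 := by unfold TT8; positivity
  obtain ⟨R, lam, hlam, hR0, hRm, hRs, hRk⟩ := exists_radii h0 h8 hk hc₀ hs hc
  obtain ⟨M, hM⟩ := ge_sumK hc hC hR0 hRm hRs (a := c₁ * c₂ / 8) (by positivity)
  obtain ⟨n1, hn1⟩ : ∃ n1 : ℕ, ∀ m ≥ n1, R₀ ≤ R m := by
    have h1 := hRs.tendsto_atTop_zero.eventually
      (gt_mem_nhds (Real.exp_pos (-c * R₀ ^ 2)))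
    obtain ⟨n1, hn1⟩ := eventually_atTop.1 h1
    refine ⟨n1, fun m hm => ?_⟩
    have h2 := Real.exp_lt_exp.1 (hn1 m hm)
    by_contra hcon
    have h3 : R m ^ 2 ≤ R₀ ^ 2 := pow_le_pow_left₀ (hR0 m) (not_le.1 hcon).le 2
    nlinarith only [h2, h3, hc]
  obtain ⟨A, hA⟩ : ∃ A : ℕ → ℝ, A = fun m => C * R m ^ xx κ * geRho m ^ dd κ := ⟨_, rfl⟩
  have hAk : ∀ m, A m ≤ C * lam * k (geRho m / 4) := fun m => by
    rw [hA, mul_assoc C lam]
    dsimp only
    rw [mul_assoc]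
    exact mul_le_mul_of_nonneg_left (hRk m) hC.le
  obtain ⟨m0, hm0def⟩ : ∃ m0 : ℕ, m0 = max 7 (max n1 M) := ⟨_, rfl⟩
  have hm0 : 7 ≤ m0 := hm0def ▸ le_max_left _ _
  have hm1 : n1 ≤ m0 := hm0def ▸ (le_max_left n1 M).trans (le_max_right _ _)
  have hm2 : M ≤ m0 := hm0def ▸ (le_max_right n1 M).trans (le_max_right _ _)
  refine ⟨c₁, C * lam, geRho (m0 + 2), c₂ / 2, ε₀, hc₁,
    by positivity, geRho_pos _, by positivity, hε₀, ?_⟩
  intro Ω _ P W hW ε hε hεle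
  obtain ⟨N, hN⟩ := LowGood_exists_N hε
  have hYp : ∀ x : (Σ _ : ℕ, ℤ × ℤ),
      Measurable[past W TT8] (fun ω => mu κ ε (fun u => W u ω) (geB x) 0 TT8) := fun x =>
    discBad_mu_past hW le_rfl hT (geB x)
  have hind : ∀ x : (Σ _ : ℕ, ℤ × ℤ),
      Measurable ({y : ℝ | A x.1 ≤ y}.indicator ENNReal.ofReal) := fun x =>
    ENNReal.measurable_ofReal.indicator (measurableSet_le measurable_const measurable_id)
  obtain ⟨B, hB⟩ : ∃ B : Ω → ℝ≥0∞, B = fun ω => ∑ x ∈ geF8 ε m0 N,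
      {y : ℝ | A x.1 ≤ y}.indicator ENNReal.ofReal
        (mu κ ε (fun u => W u ω) (geB x) 0 TT8) := ⟨_, rfl⟩
  have hBp : Measurable[past W TT8] B := by
    rw [hB]
    exact Finset.measurable_fun_sum _ fun x _ => (hind x).comp (hYp x)
  have hBm : Measurable B := hBp.mono hW.past_le le_rfl
  have hBx : ∀ x : (Σ _ : ℕ, ℤ × ℤ), Measurable (fun ω =>
      {y : ℝ | A x.1 ≤ y}.indicator ENNReal.ofReal
        (mu κ ε (fun u => W u ω) (geB x) 0 TT8)) := fun x =>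
    ((hind x).comp (hYp x)).mono hW.past_le le_rfl
  have hEB : ∫⁻ ω, B ω ∂P ≤ ENNReal.ofReal (c₁ * c₂ / 8) := by
    rw [hB]
    change ∫⁻ ω, ∑ x ∈ geF8 ε m0 N, {y : ℝ | A x.1 ≤ y}.indicator ENNReal.ofReal
        (mu κ ε (fun u => W u ω) (geB x) 0 TT8) ∂P ≤ _
    rw [lintegral_finsetSum _ fun x _ => hBx x]
    refine le_trans (Finset.sum_le_sum fun x hx => ?_) (hM m0 N hm2 ε hε)
    obtain ⟨⟨hx1, hx2, hx3⟩, hx4⟩ := LowGood_geF8_mem.1 hx
    have hx7 : 7 ≤ x.1 := by omega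
    have hRR : R₀ ≤ R x.1 := hn1 _ (by omega)
    refine le_trans (le_of_eq ?_) (hdisc hW (z₀ := gePt x.1 x.2) (ρ := geRho x.1) (ε := ε)
      (R := R x.1) (T := TT8) (geRho_pos _) (geRho_seven hx7)
      (geIdx_dist hx4) hRR hε (LowGood_eps_le hε hx3 (geRho_seven hx7)) hT)
    have hms : MeasurableSet {ω | C * R x.1 ^ xx κ * geRho x.1 ^ dd κ ≤
        mu κ ε (fun u => W u ω) (ball (gePt x.1 x.2) (geRho x.1)) 0 TT8} :=
      measurableSet_le measurable_const ((hYp x).mono hW.past_le le_rfl)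
    rw [← lintegral_indicator hms, hA]
    rfl
  refine ⟨{ω | B ω < ENNReal.ofReal (c₁ / 2)} ∩
    {ω | c₁ ≤ mu κ ε (fun u => W u ω) (ball Complex.I (1 / 2)) 0 TT8}, ?_, ?_, ?_⟩
  · exact (measurableSet_lt hBp measurable_const).inter
      (measurableSet_le measurable_const (discBad_mu_past hW le_rfl hT _))
  · exact LowGood_prob hc₁ hc₂ hBm hEB (hmass hW hε hεle)
  · rintro ω ⟨hω1, hω2⟩
    refine ge_detK h0 h8 hε hT hc₁ (by positivity) hk hAk (hW.cont ω) hm0 hN ?_ hω2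
    rw [LowK_sum_bad]
    refine le_trans (le_of_eq ?_) (le_of_lt hω1)
    rw [hB]

theorem lowK_main {κ : ℝ} (h0 : 0 < κ) (h8 : κ < 8) {h : ℝ → ℝ} (hh' : IsGauge h)
    {c₁ C₃ δ₀ : ℝ}
    (hc₁ : 0 < c₁) (hC₃ : 0 < C₃) (hδ₀ : 0 < δ₀) {W : ℝ → ℝ} (hW : Continuous W)
    {T : ℝ} (hT : 0 < T) {E : Set ℂ} (hEc : IsCompact E)
    (hyc : ∀ V : Set ℂ, IsOpen V → E ⊆ V → ∀ᶠ n : ℕ in atTop,
      ∀ z ∈ ball Complex.I (1 / 2), z ∉ V → yc κ (Real.exp (-n)) W z 0 T = 0)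
    (hfreq : ∃ᶠ n : ℕ in atTop, GoodEvK κ h c₁ C₃ δ₀ (Real.exp (-n)) W T) :
    0 < gaugeMeasure h E := by
  rw [pos_iff_ne_zero]
  intro hzero
  -- constants
  set η : ℝ := c₁ / (8 * C₃) with hη
  have hηpos : 0 < η := by positivity
  set δ : ℝ := δ₀ / 4 with hδ
  have hδpos : 0 < δ := by positivity
  have hδ1 : 2 * δ ≤ δ₀ := by
    rw [hδ]; linarith only [hδ₀]
  -- the cover
  have hpre : pre h δ E < ENNReal.ofReal η :=
    lt_of_le_of_lt (pre_le_gaugeMeasure h hδpos E) (by rw [hzero]; exact ENNReal.ofReal_pos.2 hηpos)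
  obtain ⟨U, hU1, hU2, hU3⟩ := exists_cover hpre
  obtain ⟨ε, hεpos, hεsum⟩ := ENNReal.exists_pos_sum_of_countable
    (ENNReal.ofReal_pos.2 hηpos).ne' ℕ
  have hD : ∀ j, ∃ D' : ℝ, Metric.diam (U j) < D' ∧ D' ≤ Metric.diam (U j) + δ ∧
      h D' ≤ h (Metric.diam (U j)) + ε j := fun j =>
    hh'.enlarge Metric.diam_nonneg (by exact_mod_cast hεpos j) hδpos
  choose D' hD1 hD2 hD3 using hD
  set V : ℕ → Set ℂ := fun j => thickening ((D' j - Metric.diam (U j)) / 2) (U j) with hV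
  have hVo : ∀ j, IsOpen (V j) := fun j => isOpen_thickening
  have hVb : ∀ j, Bornology.IsBounded (V j) := fun j => (hU2 j).1.thickening
  have hVd : ∀ j, Metric.diam (V j) ≤ D' j := by
    intro j
    have h1 : 0 ≤ (D' j - Metric.diam (U j)) / 2 := by linarith only [hD1 j]
    refine (Metric.diam_thickening_le (U j) h1).trans ?_
    linarith only []
  have hVd2 : ∀ j, Metric.diam (V j) ≤ 2 * δ := fun j => by
    linarith only [hVd j, hD2 j, (hU2 j).2]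
  have hUV : ∀ j, U j ⊆ V j := fun j => self_subset_thickening (by linarith only [hD1 j]) _
  obtain ⟨J, hJ⟩ := hEc.elim_finite_subcover V hVo
    (hU1.trans (iUnion_mono hUV))
  set VV : Set ℂ := ⋃ j ∈ J, V j with hVV
  have hVVo : IsOpen VV := isOpen_biUnion fun j _ => hVo j
  -- choice of the level
  have hev : ∀ᶠ n : ℕ in atTop, ∀ z ∈ ball Complex.I (1 / 2), z ∉ VV →
      yc κ (Real.exp (-n)) W z 0 T = 0 := hyc VV hVVo hJ
  have hev2 : ∀ᶠ n : ℕ in atTop, ∀ j ∈ J, (V j).Nonempty →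
      √(Real.exp (-(n : ℝ))) ≤ Metric.diam (V j) := by
    rw [Filter.eventually_all_finset]
    intro j hj
    by_cases hne : (V j).Nonempty
    · obtain ⟨x, hx⟩ := hne
      filter_upwards [lowVisPosAux_sqrt_le (diam_pos_of_open (hVo j) (hVb j) hx)] with n hn
      exact fun _ => hn
    · exact Eventually.of_forall fun n hn => absurd hn hne
  obtain ⟨n, ⟨Ub, hUb, hmu1, hmu2, hmu3⟩, hn, hn2⟩ :=
    (hfreq.and_eventually (hev.and hev2)).exists
  set r : ℝ := Real.exp (-(n : ℝ)) with hr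
  have hrpos : 0 < r := Real.exp_pos _
  classical
  set B : Set ℂ := ball Complex.I (1 / 2) with hB
  have hBcl : B ⊆ closedBall Complex.I (1 / 2) := ball_subset_closedBall
  set J' : Finset ℕ := J.filter (fun j => ¬ (V j ∩ B ⊆ Ub)) with hJ'
  have key := mu_le_of_cover (κ := κ) (r := r) (W := W) (T := T) h0 h8 hrpos hW hT.le
    (B := B) (A := Ub) measurableSet_ball
    (fun z hz => by
      have := im_gt_of_mem_ball_I (hBcl hz)
      linarith only [this]) measure_ball_lt_top.ne hUb J' V (fun j _ => (hVo j).measurableSet)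
    (fun z hzB hzA hzV => by
      refine hn z hzB ?_
      intro hzVV
      obtain ⟨j, hj, hjz⟩ := mem_iUnion₂.1 hzVV
      by_cases hsub : V j ∩ B ⊆ Ub
      · exact hzA (hsub ⟨hjz, hzB⟩)
      · exact hzV j (Finset.mem_filter.2 ⟨hj, hsub⟩) hjz)
  have hterm : ∀ j ∈ J', mu κ r W (V j ∩ B) 0 T ≤ C₃ * (h (Metric.diam (U j)) + ε j) := by
    intro j hj
    obtain ⟨hjJ, hjU⟩ := Finset.mem_filter.1 hj
    obtain ⟨x, hx, -⟩ := Set.not_subset.1 hjU
    rcases hmu3 (V j) (hVo j).measurableSet (hVb j) (hn2 j hjJ ⟨x, hx.1⟩)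
      ((hVd2 j).trans hδ1) with h1 | h1
    · exact absurd h1 hjU
    · refine h1.trans (mul_le_mul_of_nonneg_left ?_ hC₃.le)
      have hpos := diam_pos_of_open (hVo j) (hVb j) hx.1
      refine le_trans ?_ (hD3 j)
      exact hh'.mono (mem_Ici.2 hpos.le) (mem_Ici.2 (hpos.le.trans (hVd j))) (hVd j)
  have hs1 : ∑ j ∈ J', h (Metric.diam (U j)) ≤ η := by
    have h1 : ENNReal.ofReal (∑ j ∈ J', h (Metric.diam (U j))) ≤ ENNReal.ofReal η := by
      rw [ENNReal.ofReal_sum_of_nonneg fun j _ => hh'.nonneg Metric.diam_nonneg]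
      exact (ENNReal.sum_le_tsum J').trans hU3.le
    exact (ENNReal.ofReal_le_ofReal_iff hηpos.le).1 h1
  have hs2 : ∑ j ∈ J', (ε j : ℝ) ≤ η := by
    have h1 : ENNReal.ofReal (∑ j ∈ J', (ε j : ℝ)) ≤ ENNReal.ofReal η := by
      rw [ENNReal.ofReal_sum_of_nonneg fun j _ => (ε j).coe_nonneg]
      simp_rw [ENNReal.ofReal_coe_nnreal]
      exact (ENNReal.sum_le_tsum J').trans hεsum.le
    exact (ENNReal.ofReal_le_ofReal_iff hηpos.le).1 h1
  have hsum : ∑ j ∈ J', mu κ r W (V j ∩ B) 0 T ≤ C₃ * (2 * η) := by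
    refine (Finset.sum_le_sum hterm).trans ?_
    rw [← Finset.mul_sum, Finset.sum_add_distrib]
    refine mul_le_mul_of_nonneg_left ?_ hC₃.le
    linarith only [hs1, hs2]
  have hCη : C₃ * (2 * η) = c₁ / 4 := by
    rw [hη]
    field_simp
    ring
  linarith only [hc₁, hmu1, hmu2, key, hsum, hCη]

theorem good_frequentlyK {κ : ℝ} (h0 : 0 < κ) (h8 : κ < 8) {g : ℝ → ℝ} (hg : IsGauge g) {c₀ : ℝ}
    (hc₀ : 0 < c₀) (hsum : Summable fun n => Real.exp (-c₀ * uu κ g n ^ (2 / xx κ))) :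
    ∃ c₁ C₃ δ₀ : ℝ, 0 < c₁ ∧ 0 < C₃ ∧ 0 < δ₀ ∧
      ∀ {Ω : Type*} [MeasurableSpace Ω] {P : Measure Ω} {W : ℝ → Ω → ℝ} (_ : IsDrv κ P W)
      {s : ℝ} (_ : 0 ≤ s), ∀ᵐ ω ∂P, ∃ᶠ k : ℕ in atTop, ∃ᶠ n : ℕ in atTop,
        GoodEvK κ g c₁ C₃ δ₀ (Real.exp (-n))
          (scaleW ((1 / 2) ^ k) (shiftW s (fun u => W u ω))) TT8 := by
  obtain ⟨c₁, C₃, δ₀, c₂, ε₀, hc₁, hC₃, hδ₀, hc₂, hε₀, hgood⟩ := good_eventK h0 h8 hg hc₀ hsum
  refine ⟨c₁, C₃, δ₀, hc₁, hC₃, hδ₀, ?_⟩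
  intro Ω _ P W hW s hs
  have hprob := hW.prob
  have hr : ∀ k : ℕ, (0 : ℝ) < (1 / 2) ^ k := fun k => by positivity
  have hWk : ∀ k : ℕ, IsDrv κ P (scaleP ((1 / 2) ^ k) (shiftP s W)) :=
    fun k => (hW.shift hs).scale (hr k)
  have hT : (0 : ℝ) ≤ TT8 := by unfold TT8; norm_num
  -- small `ε`
  obtain ⟨N₀, hN₀⟩ : ∃ N₀ : ℕ, ∀ n : ℕ, N₀ ≤ n → Real.exp (-n) ≤ ε₀ := by
    have h1 : Tendsto (fun n : ℕ => Real.exp (-(n : ℝ))) atTop (𝓝 0) :=
      Real.tendsto_exp_neg_atTop_nhds_zero.comp tendsto_natCast_atTop_atTop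
    exact eventually_atTop.1 (h1.eventually (ge_mem_nhds hε₀))
  have hex : ∀ k n : ℕ, ∃ G : Set Ω,
      MeasurableSet[past (scaleP ((1 / 2) ^ k) (shiftP s W)) TT8] G ∧
      (N₀ ≤ n → ENNReal.ofReal c₂ ≤ P G) ∧
      ∀ ω ∈ G, GoodEvK κ g c₁ C₃ δ₀ (Real.exp (-n))
        (scaleW ((1 / 2) ^ k) (shiftW s (fun u => W u ω))) TT8 := by
    intro k n
    by_cases hn : N₀ ≤ n
    · obtain ⟨G, hG1, hG2, hG3⟩ := hgood (hWk k) (Real.exp_pos (-(n : ℝ))) (hN₀ n hn)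
      exact ⟨G, hG1, fun _ => hG2, hG3⟩
    · exact ⟨∅, @MeasurableSet.empty Ω (past (scaleP ((1 / 2) ^ k) (shiftP s W)) TT8),
        fun h => absurd h hn, fun ω hω => absurd hω (notMem_empty ω)⟩
  choose G hG1 hG2 hG3 using hex
  set H : ℕ → Set Ω := fun k => {ω | ∃ᶠ n : ℕ in atTop, ω ∈ G k n} with hH
  have hHm : ∀ k, MeasurableSet[past (scaleP ((1 / 2) ^ k) (shiftP s W)) TT8] (H k) :=
    fun k => LowSeg_meas_freq _ 0 fun n _ => hG1 k n
  have hHP : ∀ k, ENNReal.ofReal c₂ ≤ P (H k) := fun k =>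
    LowSeg_freq_ge P (fun n => (hWk k).past_le _ (hG1 k n)) N₀ (hG2 k)
  set F : Set Ω := {ω | ∃ᶠ k : ℕ in atTop, ω ∈ H k} with hF
  have hFP : ENNReal.ofReal c₂ ≤ P F :=
    LowSeg_freq_ge P (fun k => (hWk k).past_le _ (hHm k)) 0 fun k _ => hHP k
  have hFm : ∀ ε : ℝ, 0 < ε → MeasurableSet[germ W s ε] F := by
    intro ε hε
    have h1 : Tendsto (fun k : ℕ => (((1 : ℝ) / 2) ^ k) ^ 2 * TT8) atTop (𝓝 0) := by
      have h2 : Tendsto (fun k : ℕ => ((1 : ℝ) / 2) ^ k) atTop (𝓝 0) :=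
        tendsto_pow_atTop_nhds_zero_of_lt_one (by norm_num) (by norm_num)
      have h3 := (h2.pow 2).mul_const TT8
      simpa only [one_div, inv_pow, ne_eq, OfNat.ofNat_ne_zero, not_false_eq_true, zero_pow, zero_mul] using h3
    obtain ⟨K₀, hK₀⟩ := eventually_atTop.1 (h1.eventually (ge_mem_nhds hε))
    refine LowSeg_meas_freq _ K₀ fun k hk => ?_
    exact ((past_scale_shift_le hs (hr k) hT).trans (germ_mono (hK₀ k hk))) _ (hHm k)
  have hF1 : P F = 1 := by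
    rcases blumenthal hW hs hFm with h | h
    · rw [h] at hFP
      exact absurd (ENNReal.ofReal_pos.2 hc₂) (not_lt.2 hFP)
    · exact h
  have hFmeas : MeasurableSet F :=
    ((germ_le_past hs zero_le_one).trans hW.past_le) _ (hFm 1 one_pos)
  have hae : ∀ᵐ ω ∂P, ω ∈ F := by
    rw [ae_iff]
    exact (prob_compl_eq_zero_iff hFmeas).2 hF1
  filter_upwards [hae] with ω hω
  exact Frequently.mono hω fun k hk => Frequently.mono hk fun n hn => hG3 k n ω hn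

/-- If the series converges for some constant then all segments have positive measure. -/
theorem pos_segmentsK {κ : ℝ} (h0 : 0 < κ) (h8 : κ < 8) {h : ℝ → ℝ} (hh' : IsGauge h) {c₀ : ℝ}
    (hc₀ : 0 < c₀) (hsum : Summable fun n => Real.exp (-c₀ * uu κ h n ^ (2 / xx κ)))
    {Ω : Type*} [MeasurableSpace Ω] {P : Measure Ω} {W : ℝ → Ω → ℝ} (hW : IsDrv κ P W)
    {γ : Ω → ℝ → ℂ} (hγ : ∀ᵐ ω ∂P, IsTrace (fun u => W u ω) (γ ω)) :
    ∀ᵐ ω ∂P, ∀ s t : ℝ, 0 ≤ s → s < t → 0 < gaugeMeasure h (γ ω '' Icc s t) := by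
  obtain ⟨c₁, C₃, δ₀, hc₁, hC₃, hδ₀, hgf⟩ := good_frequentlyK h0 h8 hh' hc₀ hsum
  have hTT : 0 < TT8 := by
    have h4 : (0 : ℝ) < 4 * 10 ^ 7 := by norm_num
    exact h4
  have hall : ∀ᵐ ω ∂P, ∀ q : ℚ, 0 ≤ (q : ℝ) → ∃ᶠ k : ℕ in atTop, ∃ᶠ n : ℕ in atTop,
      GoodEvK κ h c₁ C₃ δ₀ (Real.exp (-n))
        (scaleW ((1 / 2) ^ k) (shiftW (q : ℝ) (fun u => W u ω))) TT8 := by
    rw [ae_all_iff]
    intro q
    by_cases hq : 0 ≤ (q : ℝ)
    · filter_upwards [hgf hW hq] with ω hω _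
      exact hω
    · exact Eventually.of_forall fun ω hq' => absurd hq' hq
  filter_upwards [hall, hγ] with ω hω hγω s t hs hst
  obtain ⟨q, hsq, hqt⟩ := exists_rat_btwn hst
  have hq0 : (0 : ℝ) ≤ q := hs.trans hsq.le
  have hu : 0 < t - (q : ℝ) := by linarith only [hqt]
  have hcont : Continuous (fun u => W u ω) := hW.cont ω
  -- eventually `4^{-k} TT8 ≤ t - q`
  have htend : Tendsto (fun k : ℕ => (((1 / 2 : ℝ) ^ k) ^ 2) * TT8) atTop (𝓝 0) := by
    have h1 : Tendsto (fun k : ℕ => (1 / 2 : ℝ) ^ k) atTop (𝓝 0) :=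
      tendsto_pow_atTop_nhds_zero_of_lt_one (by norm_num) (by norm_num)
    have h2 := (h1.pow 2).mul_const TT8
    simpa only [one_div, inv_pow, ne_eq, OfNat.ofNat_ne_zero, not_false_eq_true, zero_pow, zero_mul] using h2
  have hev : ∀ᶠ k : ℕ in atTop, (((1 / 2 : ℝ) ^ k) ^ 2) * TT8 ≤ t - q :=
    htend.eventually_le_const hu
  obtain ⟨k, hk, hku⟩ := ((hω q hq0).and_eventually hev).exists
  have hr : (0 : ℝ) < (1 / 2) ^ k := by positivity
  have hsc : Continuous (scaleW ((1 / 2) ^ k) (shiftW (q : ℝ) (fun u => W u ω))) := by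
    have hsh : Continuous (shiftW (q : ℝ) (fun u => W u ω)) :=
      (hcont.comp (continuous_const.add continuous_id)).sub continuous_const
    exact continuous_const.mul (hsh.comp (continuous_const.mul continuous_id))
  have hpos := lowK_main h0 h8 hh' hc₁ hC₃ hδ₀ hsc hTT (vis_closed hsc TT8)
    (fun _ hV hc => vis_yc_zero hsc hTT.le hV hc) hk
  have hseg := seg_pos_of_vis hh' hcont hγω hq0 hTT.le hr hku hpos
  refine hseg.trans_le (gaugeMeasure_mono h (image_mono ?_))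
  rw [show (q : ℝ) + (t - q) = t by ring]
  exact Icc_subset_Icc_left hsq.le

end Vale.Agent.P164.E8
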