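import Vale.Agent.N164.Lower

set_option linter.all false

/-!
# Gauges with prescribed values at the dyadic scales
-/

namespace Vale.Agent.P164.E8

open Set Metric Filter Topology

/-- Interpolation of a decreasing null sequence by a gauge. -/
lemma exists_gauge_interp {a : ℕ → ℝ} (ha : Antitone a) (hpos : ∀ n, 0 < a n)
    (hlim : Tendsto a atTop (𝓝 0)) : ∃ k : ℝ → ℝ, IsGauge k ∧ ∀ n, k ((1 / 2) ^ n) = a n := by
  have hd : ∀ n, 0 ≤ a n - a (n + 1) := fun n => sub_nonneg.2 (ha (Nat.le_succ n))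
  have hS : ∀ m, HasSum (fun n => a (n + m) - a (n + m + 1)) (a m) := by
    intro m
    rw [hasSum_iff_tendsto_nat_of_nonneg fun n => hd _]
    have h1 : ∀ N, ∑ n ∈ Finset.range N, (a (n + m) - a (n + m + 1)) = a m - a (N + m) := by
      intro N
      induction N with
      | zero => simp
      | succ N ih => rw [Finset.sum_range_succ, ih, Nat.add_right_comm]; ring
    simp only [h1]
    simpa using (hlim.comp (tendsto_add_atTop_nat m)).const_sub (a m)
  have hS0 : Summable fun n => a n - a (n + 1) := (hS 0).summable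
  set ψ : ℕ → ℝ → ℝ := fun n r => max 0 (min 1 (2 ^ (n + 1) * r - 1)) with hψ
  have hψ0 : ∀ n r, 0 ≤ ψ n r := fun n r => le_max_left _ _
  have hψ1 : ∀ n r, ψ n r ≤ 1 := fun n r => max_le zero_le_one (min_le_left _ _)
  have hbd : ∀ n r, ‖(a n - a (n + 1)) * ψ n r‖ ≤ a n - a (n + 1) := fun n r => by
    rw [Real.norm_of_nonneg (mul_nonneg (hd n) (hψ0 n r))]
    exact mul_le_of_le_one_right (hd n) (hψ1 n r)
  have hsum : ∀ r, Summable fun n => (a n - a (n + 1)) * ψ n r := fun r =>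
    Summable.of_norm_bounded hS0 fun n => hbd n r
  have hmono : Monotone fun r => ∑' n, (a n - a (n + 1)) * ψ n r := by
    intro r s hrs
    refine (hsum r).tsum_le_tsum (fun n => mul_le_mul_of_nonneg_left ?_ (hd n)) (hsum s)
    refine max_le_max le_rfl (min_le_min le_rfl ?_)
    have : (0 : ℝ) < 2 ^ (n + 1) := by positivity
    nlinarith
  have hval : ∀ m, ∑' n, (a n - a (n + 1)) * ψ n ((1 / 2) ^ m) = a m := by
    intro m
    rw [← (hsum _).sum_add_tsum_nat_add m, Finset.sum_eq_zero, zero_add, ← (hS m).tsum_eq]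
    · refine tsum_congr fun n => ?_
      have h1 : (2 : ℝ) ^ (n + m + 1) * (1 / 2) ^ m = 2 * 2 ^ n := by
        rw [pow_succ, pow_add, one_div, inv_pow]; field_simp
      have h2 : (1 : ℝ) ≤ 2 ^ n := one_le_pow₀ one_le_two
      simp only [hψ, h1]
      rw [min_eq_left (by linarith), max_eq_right zero_le_one, mul_one]
    · intro n hn
      have h1 : (2 : ℝ) ^ (n + 1) * (1 / 2) ^ m ≤ 1 := by
        rw [one_div, inv_pow, ← div_eq_mul_inv, div_le_one (by positivity)]
        exact pow_le_pow_right₀ one_le_two (Finset.mem_range.1 hn)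
      simp only [hψ]
      rw [max_eq_left ((min_le_right _ _).trans (by linarith)), mul_zero]
  refine ⟨fun r => ∑' n, (a n - a (n + 1)) * ψ n r, ⟨?_, hmono.monotoneOn _, ?_, ?_⟩, hval⟩
  · refine (continuous_tsum (fun n => ?_) hS0 hbd).continuousOn
    simp only [hψ]
    fun_prop
  · simp [hψ]
  · intro r hr
    obtain ⟨m, hm⟩ := exists_pow_lt_of_lt_one hr (show (1 / 2 : ℝ) < 1 by norm_num)
    exact (hpos m).trans_le ((hval m).symm.le.trans (hmono hm.le))

/-- If the series converges for every constant then it converges with constants tending to `0`. -/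
lemma exists_slow {t : ℕ → ℝ} (h : ∀ c : ℝ, 0 < c → Summable fun n => Real.exp (-c * t n))
    {q : ℝ} (hq : 0 < q) : ∃ J : ℕ → ℕ, Monotone J ∧ Tendsto J atTop atTop ∧
      Summable fun n => Real.exp (-q ^ J n * t n) := by
  classical
  have h1 : ∀ i : ℕ, ∃ N : ℕ, i ≤ N ∧ ∀ s : Finset ℕ, (∀ n ∈ s, N < n) →
      ∑ n ∈ s, Real.exp (-q ^ (i + 1) * t n) ≤ (1 / 2) ^ i := by
    intro i
    obtain ⟨s₀, hs₀⟩ := summable_iff_vanishing_norm.1 (h (q ^ (i + 1)) (by positivity))
      ((1 / 2) ^ i) (by positivity)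
    refine ⟨max i (s₀.sup id), le_max_left _ _, fun s hs => ?_⟩
    refine (le_abs_self _).trans (hs₀ s (Finset.disjoint_left.2 fun n hn hn0 => ?_)).le
    exact absurd ((Finset.le_sup (f := id) hn0).trans (le_max_right i _)) (not_le.2 (hs n hn))
  choose N hN1 hN2 using h1
  have hex : ∀ n, ∃ j, n ≤ N j := fun n => ⟨n, hN1 n⟩
  refine ⟨fun n => Nat.find (hex n), fun n n' hn =>
    Nat.find_min' _ (hn.trans (Nat.find_spec (hex n'))), ?_, ?_⟩
  · refine tendsto_atTop.2 fun j => ?_
    filter_upwards [eventually_gt_atTop ((Finset.range j).sup N)] with n hn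
    by_contra hcon
    have h2 : N (Nat.find (hex n)) ≤ (Finset.range j).sup N :=
      Finset.le_sup (f := N) (Finset.mem_range.2 (not_le.1 hcon))
    have h3 := Nat.find_spec (hex n)
    omega
  · obtain ⟨M, hM⟩ : ∃ M : ℝ, M = 2 + ∑' n, Real.exp (-q ^ 0 * t n) := ⟨_, rfl⟩
    have hT : 0 ≤ ∑' n, Real.exp (-q ^ 0 * t n) := tsum_nonneg fun n => (Real.exp_pos _).le
    have hg : Summable fun j : ℕ => M * (1 / 2 : ℝ) ^ j := summable_geometric_two.mul_left M
    refine summable_of_sum_le (c := ∑' j : ℕ, M * (1 / 2 : ℝ) ^ j)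
      (fun n => (Real.exp_pos _).le) fun s => ?_
    rw [← Finset.sum_fiberwise_of_maps_to (g := fun n => Nat.find (hex n))
      (t := s.image fun n => Nat.find (hex n)) fun n hn => Finset.mem_image_of_mem _ hn]
    refine le_trans (Finset.sum_le_sum fun j _ => ?_)
      (hg.sum_le_tsum _ fun j _ => by rw [hM]; positivity)
    rw [Finset.sum_congr rfl (g := fun n => Real.exp (-q ^ j * t n))
      fun n hn => by rw [← (Finset.mem_filter.1 hn).2]]
    rcases j with _ | i
    · refine ((h (q ^ 0) (by positivity)).sum_le_tsum _ fun n _ => (Real.exp_pos _).le).trans ?_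
      rw [hM]; simp
    · refine (hN2 i _ fun n hn => ?_).trans ?_
      · exact not_le.1 (Nat.find_min (hex n) (by rw [(Finset.mem_filter.1 hn).2]; omega))
      · have : (0 : ℝ) < (1 / 2) ^ i := by positivity
        rw [hM, pow_succ]
        nlinarith

/-- A gauge of smaller order whose series still converges. -/
lemma exists_smaller {κ : ℝ} (h0 : 0 < κ) (h8 : κ < 8) {k : ℝ → ℝ} (hk : IsGauge k)
    (h : ∀ c : ℝ, 0 < c → Summable fun n => Real.exp (-c * uu κ k n ^ (2 / xx κ))) :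
    ∃ g : ℝ → ℝ, IsGauge g ∧ (∃ c : ℝ, 0 < c ∧
      Summable fun n => Real.exp (-c * uu κ g n ^ (2 / xx κ))) ∧
      ∀ ε : ℝ, 0 < ε → ∃ δ : ℝ, 0 < δ ∧ ∀ r : ℝ, 0 < r → r ≤ δ → g r ≤ ε * k r := by
  have hx := xx_pos h8
  obtain ⟨J, hJm, hJt, hJs⟩ := exists_slow (t := fun n => uu κ k (n + 1) ^ (2 / xx κ))
    (fun c hc => (summable_nat_add_iff 1).2 (h c hc)) (q := (1 / 2) ^ (2 / xx κ)) (by positivity)
  have hkp : ∀ n : ℕ, 0 < k ((1 / 2) ^ n) := fun n => hk.pos _ (by positivity)
  have hka : Antitone fun n : ℕ => k ((1 / 2) ^ n) := fun m n hmn =>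
    hk.mono (mem_Ici.2 (by positivity)) (mem_Ici.2 (by positivity))
      (pow_le_pow_of_le_one (by norm_num) (by norm_num) hmn)
  have hJ0 : Tendsto (fun n => (1 / 2 : ℝ) ^ J n) atTop (𝓝 0) :=
    (tendsto_pow_atTop_nhds_zero_of_lt_one (by norm_num) (by norm_num)).comp hJt
  obtain ⟨g, hg, hgv⟩ := exists_gauge_interp
    (a := fun n => (1 / 2) ^ J n * k ((1 / 2) ^ (n + 1)))
    (fun m n hmn => mul_le_mul (pow_le_pow_of_le_one (by norm_num) (by norm_num) (hJm hmn))
      (hka (by omega)) (hkp _).le (by positivity))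
    (fun n => mul_pos (by positivity) (hkp _))
    (squeeze_zero (fun n => (mul_pos (by positivity) (hkp _)).le)
      (fun n => mul_le_mul_of_nonneg_left (hka (Nat.zero_le (n + 1))) (by positivity))
      (by have := hJ0.mul_const (k ((1 / 2) ^ 0)); rwa [zero_mul] at this))
  refine ⟨g, hg, ⟨((2 : ℝ) ^ dd κ) ^ (2 / xx κ), by positivity, hJs.congr fun n => ?_⟩,
    fun ε hε => ?_⟩
  · have hu := uu_pos κ hk (n + 1)
    have hug := uu_pos κ hg n
    have e1 : (2 : ℝ) ^ dd κ * uu κ g n = (1 / 2) ^ J n * uu κ k (n + 1) := by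
      unfold uu
      rw [hgv, pow_succ (1 / 2 : ℝ) n, Real.mul_rpow (by positivity) (by norm_num),
        Real.div_rpow zero_le_one zero_le_two, Real.one_rpow]
      field_simp
    rw [neg_mul, neg_mul, ← Real.mul_rpow (by positivity) hug.le, e1,
      Real.mul_rpow (by positivity) hu.le, ← Real.rpow_natCast, ← Real.rpow_natCast,
      ← Real.rpow_mul (by norm_num), ← Real.rpow_mul (by norm_num), mul_comm (2 / xx κ)]
  · obtain ⟨n₀, hn₀⟩ := eventually_atTop.1 (hJ0.eventually (ge_mem_nhds hε))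
    refine ⟨(1 / 2) ^ n₀, by positivity, fun r hr hr1 => ?_⟩
    obtain ⟨n, hn1, hn2⟩ := exists_nat_pow_near_of_lt_one hr
      (hr1.trans (pow_le_one₀ (by norm_num) (by norm_num)))
      (show (0 : ℝ) < 1 / 2 by norm_num) (show (1 / 2 : ℝ) < 1 by norm_num)
    have hn : n₀ ≤ n := by
      by_contra hcon
      have := pow_le_pow_of_le_one (show (0 : ℝ) ≤ 1 / 2 by norm_num) (by norm_num)
        (show n + 1 ≤ n₀ by omega)
      linarith
    refine (hg.mono (mem_Ici.2 hr.le) (mem_Ici.2 (by positivity)) hn2).trans ?_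
    rw [hgv]
    exact mul_le_mul (hn₀ n hn) (hk.mono (mem_Ici.2 (by positivity)) (mem_Ici.2 hr.le) hn1.le)
      (hkp _).le hε.le

/-- A gauge with a finite positive critical constant which is much smaller than the exact gauge
along a sequence of scales. -/
lemma exists_dip {κ : ℝ} (h0 : 0 < κ) (h8 : κ < 8) : ∃ k : ℝ → ℝ, IsGauge k ∧
    (Summable fun n => Real.exp (-2 * uu κ k n ^ (2 / xx κ))) ∧
    (¬ Summable fun n => Real.exp (-1 * uu κ k n ^ (2 / xx κ))) ∧
    ∀ ε : ℝ, 0 < ε → ∃ᶠ r in 𝓝[>] (0 : ℝ), k r ≤ ε * hh κ r := by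
  have hx := xx_pos h8
  have hx1 : xx κ ≤ 1 := by unfold xx; linarith
  have hd : 1 ≤ dd κ := by unfold dd; linarith
  have hL : ∀ n : ℕ, 0 < Real.log (n + 2) := fun n =>
    Real.log_pos (by have : (0 : ℝ) ≤ n := n.cast_nonneg; linarith)
  obtain ⟨b, hb⟩ : ∃ b : ℕ → ℕ → ℝ, b = fun (m n : ℕ) =>
    ((1 / 2 : ℝ) ^ m) ^ dd κ * Real.log (n + 2) ^ (xx κ / 2) := ⟨_, rfl⟩
  have hb0 : ∀ m n, 0 < b m n := fun m n => by have := hL n; rw [hb]; positivity
  have hpw : ∀ m : ℕ, ((1 / 2 : ℝ) ^ m) ^ dd κ ≤ (1 / 2) ^ m := fun m => by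
    have := Real.rpow_le_rpow_of_exponent_ge (x := (1 / 2 : ℝ) ^ m) (by positivity)
      (pow_le_one₀ (by norm_num) (by norm_num)) hd
    rwa [Real.rpow_one] at this
  have hstep : ∀ m m' n : ℕ, m < m' → b m' (n + 1) ≤ b m n := by
    intro m m' n hm
    have h1 : Real.log ((n + 1 : ℕ) + 2) ≤ 4 * Real.log (n + 2) := by
      have h2 : Real.log ((n + 1 : ℕ) + 2) ≤ Real.log (((n : ℝ) + 2) ^ 2) := by
        have : (0 : ℝ) ≤ n := n.cast_nonneg
        refine Real.log_le_log (by positivity) ?_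
        push_cast; nlinarith
      rw [Real.log_pow] at h2
      push_cast at h2 ⊢
      linarith [hL n]
    have h3 : Real.log ((n + 1 : ℕ) + 2) ^ (xx κ / 2) ≤ 2 * Real.log (n + 2) ^ (xx κ / 2) := by
      refine (Real.rpow_le_rpow (hL _).le h1 (by positivity)).trans ?_
      rw [Real.mul_rpow (by norm_num) (hL n).le]
      refine mul_le_mul_of_nonneg_right ?_ (Real.rpow_nonneg (hL n).le _)
      calc (4 : ℝ) ^ (xx κ / 2) ≤ 4 ^ (1 / 2 : ℝ) :=
            Real.rpow_le_rpow_of_exponent_le (by norm_num) (by linarith)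
        _ = 2 := by rw [← Real.sqrt_eq_rpow, show (4 : ℝ) = 2 ^ 2 by norm_num, Real.sqrt_sq]; norm_num
    have h4 : ((1 / 2 : ℝ) ^ m') ^ dd κ ≤ ((1 / 2 : ℝ) ^ m) ^ dd κ * (1 / 2) := by
      have h5 : (1 / 2 : ℝ) ^ m' ≤ (1 / 2) ^ m * (1 / 2) ^ 1 := by
        rw [← pow_add]; exact pow_le_pow_of_le_one (by norm_num) (by norm_num) hm
      refine (Real.rpow_le_rpow (by positivity) h5 (by linarith)).trans ?_
      rw [Real.mul_rpow (by positivity) (by positivity)]
      exact mul_le_mul_of_nonneg_left (by simpa using hpw 1) (by positivity)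
    rw [hb]
    refine (mul_le_mul h4 h3 (Real.rpow_nonneg (hL _).le _) (by positivity)).trans (le_of_eq ?_)
    ring
  have ha1 : Antitone fun n => b n n := antitone_nat_of_succ_le fun n => hstep _ _ n (by omega)
  have ha2 : Antitone fun j => b (2 ^ j) j := antitone_nat_of_succ_le fun j =>
    hstep _ _ j (Nat.pow_lt_pow_right one_lt_two (by omega))
  have hlim : Tendsto (fun n => b n n) atTop (𝓝 0) := by
    have h1 : Tendsto (fun n : ℕ => (n : ℝ) * (1 / 2 : ℝ) ^ n + 3 * (1 / 2 : ℝ) ^ n) atTop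
        (𝓝 (0 + 3 * 0)) := (tendsto_self_mul_const_pow_of_lt_one (by norm_num) (by norm_num)).add
          ((tendsto_pow_atTop_nhds_zero_of_lt_one (by norm_num) (by norm_num)).const_mul 3)
    rw [mul_zero, add_zero] at h1
    refine squeeze_zero (fun n => (hb0 _ _).le) (fun n => ?_) h1
    have hn : (0 : ℝ) ≤ n := n.cast_nonneg
    have h2 : Real.log (n + 2) ^ (xx κ / 2) ≤ n + 3 := by
      calc Real.log (n + 2) ^ (xx κ / 2) ≤ ((n : ℝ) + 3) ^ (xx κ / 2) :=
            Real.rpow_le_rpow (hL n).le (by linarith [Real.log_le_sub_one_of_pos (by linarith :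
              (0 : ℝ) < n + 2)]) (by positivity)
        _ ≤ ((n : ℝ) + 3) ^ (1 : ℝ) := Real.rpow_le_rpow_of_exponent_le (by linarith) (by linarith)
        _ = n + 3 := Real.rpow_one _
    rw [hb]
    refine (mul_le_mul (hpw n) h2 (Real.rpow_nonneg (hL _).le _) (by positivity)).trans (le_of_eq ?_)
    ring
  obtain ⟨k, hk, hkv⟩ := exists_gauge_interp
    (a := fun n => min (b n n) (b (2 ^ Nat.log 2 n) (Nat.log 2 n)))
    (fun m n hmn => min_le_min (ha1 hmn) (ha2 (Nat.log_mono_right hmn)))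
    (fun n => lt_min (hb0 _ _) (hb0 _ _))
    (squeeze_zero (fun n => (lt_min (hb0 _ _) (hb0 _ _)).le) (fun n => min_le_left _ _) hlim)
  have hpp : ∀ n : ℕ, (Real.log (n + 2) ^ (xx κ / 2)) ^ (2 / xx κ) = Real.log (n + 2) := fun n => by
    rw [← Real.rpow_mul (hL n).le, show xx κ / 2 * (2 / xx κ) = 1 by field_simp, Real.rpow_one]
  have hbn : ∀ n : ℕ, b n n / ((1 / 2) ^ n) ^ dd κ = Real.log (n + 2) ^ (xx κ / 2) := fun n => by
    rw [hb]; field_simp
  have hE : ∀ n : ℕ, Real.exp (-1 * Real.log (n + 2)) = 1 / ((n : ℝ) + 2) := fun n => by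
    rw [neg_one_mul, Real.exp_neg, Real.exp_log (by positivity), one_div]
  have hE2 : ∀ n : ℕ, Real.exp (-2 * Real.log (n + 2)) = 1 / ((n + 2 : ℕ) : ℝ) ^ 2 := fun n => by
    rw [show -2 * Real.log (n + 2) = -1 * Real.log (n + 2) + -1 * Real.log (n + 2) by ring,
      Real.exp_add, hE]
    push_cast; field_simp
  have hS2 : Summable fun n : ℕ => Real.exp (-2 * Real.log (n + 2)) := by
    simp only [hE2]
    exact (summable_nat_add_iff 2).2 (Real.summable_one_div_nat_pow.2 one_lt_two)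
  refine ⟨k, hk, ?_, fun hs => ?_, fun ε hε => ?_⟩
  · have h1 : Summable fun p : ℕ × ℕ => Real.exp (-2 * Real.log (p.1 + 2)) * (1 / 2 : ℝ) ^ p.2 :=
      hS2.mul_of_nonneg summable_geometric_two (fun _ => (Real.exp_pos _).le) fun _ => by positivity
    have h2 := h1.comp_injective (i := fun n : ℕ => (Nat.log 2 (n + 1), n + 1 - 2 ^ Nat.log 2 (n + 1)))
      fun m n hmn => by
        have e1 := Nat.pow_log_le_self 2 (show m + 1 ≠ 0 by omega)
        have e2 := Nat.pow_log_le_self 2 (show n + 1 ≠ 0 by omega)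
        have e3 := (Prod.ext_iff.1 hmn).1
        have e4 := (Prod.ext_iff.1 hmn).2
        dsimp only at e3 e4
        rw [e3] at e1 e4
        omega
    refine (summable_nat_add_iff 1).1 (Summable.of_nonneg_of_le (fun n => (Real.exp_pos _).le)
      (fun n => ?_) (((summable_nat_add_iff 1).2 hS2).add h2))
    have e1 := Nat.pow_log_le_self 2 (show n + 1 ≠ 0 by omega)
    simp only [Function.comp]
    obtain ⟨j, hj⟩ : ∃ j, j = Nat.log 2 (n + 1) := ⟨_, rfl⟩
    obtain ⟨m, hm⟩ : ∃ m, m = n + 1 - 2 ^ j := ⟨_, rfl⟩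
    have e0 := hkv (n + 1)
    rw [← hj] at e0 e1 ⊢
    rw [← hm]
    have p1 := Real.exp_pos (-2 * Real.log ((n + 1 : ℕ) + 2))
    have p2 : 0 < Real.exp (-2 * Real.log (j + 2)) * (1 / 2 : ℝ) ^ m := by positivity
    unfold uu
    rw [e0]
    rcases min_cases (b (n + 1) (n + 1)) (b (2 ^ j) j) with h | h
    · rw [h.1, hbn, hpp]; linarith
    · have e2 : b (2 ^ j) j / ((1 / 2) ^ (n + 1)) ^ dd κ =
          ((2 : ℝ) ^ m) ^ dd κ * Real.log (j + 2) ^ (xx κ / 2) := by
        have e3 : (1 / 2 : ℝ) ^ 2 ^ j = 2 ^ m * (1 / 2) ^ (n + 1) := by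
          rw [show n + 1 = m + 2 ^ j by omega, pow_add, ← mul_assoc, ← mul_pow]; norm_num
        rw [hb]
        dsimp only
        rw [e3, Real.mul_rpow (by positivity) (by positivity)]
        field_simp
      have e4 : (m : ℝ) + 1 ≤ (((2 : ℝ) ^ m) ^ dd κ) ^ (2 / xx κ) := by
        have e5 : (1 : ℝ) ≤ 2 ^ m := one_le_pow₀ one_le_two
        have e6 : (m : ℝ) + 1 ≤ 2 ^ m := by exact_mod_cast Nat.lt_two_pow_self
        have e7 : 1 ≤ dd κ * (2 / xx κ) :=
          one_le_mul_of_one_le_of_one_le hd (by rw [le_div_iff₀ hx]; linarith)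
        have e8 := Real.rpow_le_rpow_of_exponent_le e5 e7
        rw [Real.rpow_one, Real.rpow_mul (by positivity)] at e8
        linarith
      have e9 : Real.log 2 ≤ 2 * Real.log (j + 2) := by
        have := Real.log_le_log two_pos (show (2 : ℝ) ≤ j + 2 by simp)
        linarith [hL j]
      have e10 : (1 / 2 : ℝ) ^ m = Real.exp (-(m * Real.log 2)) := by
        rw [Real.exp_neg, Real.exp_nat_mul, Real.exp_log two_pos, one_div, inv_pow]
      rw [h.1, e2, Real.mul_rpow (by positivity) (Real.rpow_nonneg (hL j).le _), hpp, e10,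
        ← Real.exp_add]
      refine le_add_of_nonneg_of_le p1.le (Real.exp_le_exp.2 ?_)
      have := mul_le_mul_of_nonneg_right e4 (hL j).le
      have := mul_le_mul_of_nonneg_left e9 (Nat.cast_nonneg m : (0 : ℝ) ≤ m)
      linarith
  · have h1 : Summable fun n : ℕ => 1 / ((n + 2 : ℕ) : ℝ) := by
      refine Summable.of_nonneg_of_le (fun n => by positivity) (fun n => ?_) hs
      push_cast
      rw [← hE, ← hpp n]
      refine Real.exp_le_exp.2 (mul_le_mul_of_nonpos_left (Real.rpow_le_rpow (uu_pos κ hk n).le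
        ?_ (by positivity)) (by norm_num))
      unfold uu
      rw [hkv, ← hbn]
      exact div_le_div_of_nonneg_right (min_le_left _ _) (by positivity)
    exact Real.not_summable_one_div_natCast ((summable_nat_add_iff 2).1 h1)
  · have hl2 : 0 < Real.log 2 := Real.log_pos one_lt_two
    have ht : Tendsto (fun j : ℕ => (1 / 2 : ℝ) ^ 2 ^ j) atTop (𝓝[>] 0) :=
      tendsto_nhdsWithin_iff.2 ⟨(tendsto_pow_atTop_nhds_zero_of_lt_one (by norm_num)
        (by norm_num)).comp (tendsto_pow_atTop_atTop_of_one_lt one_lt_two),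
        Eventually.of_forall fun j => mem_Ioi.2 (by positivity)⟩
    have h2 : Tendsto (fun j : ℕ => (j : ℝ) + 2) atTop atTop :=
      tendsto_atTop_add_const_right _ _ tendsto_natCast_atTop_atTop
    have h3 := ((Real.tendsto_pow_log_div_mul_add_atTop (Real.log 2)
      (Real.log (Real.log 2) - 2 * Real.log 2) 1 hl2.ne').comp h2).eventually
      (ge_mem_nhds (show 0 < ε ^ (2 / xx κ) by positivity))
    have h4 := (tendsto_atTop_add_const_right _ (Real.log (Real.log 2) - 2 * Real.log 2)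
      (h2.const_mul_atTop hl2)).eventually_gt_atTop 0
    refine ht.frequently ((h3.and h4).mono fun j hj => ?_).frequently
    have e1 : Real.log (Real.log (1 / (1 / 2 : ℝ) ^ 2 ^ j)) =
        Real.log 2 * (j + 2) + (Real.log (Real.log 2) - 2 * Real.log 2) := by
      rw [one_div_pow, one_div_one_div, Real.log_pow, Real.log_mul (by positivity) hl2.ne']
      push_cast
      rw [Real.log_pow]
      ring
    have e2 := hj.1
    simp only [Function.comp, pow_one] at e2
    rw [div_le_iff₀ hj.2] at e2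
    have e3 := Real.rpow_le_rpow (hL j).le e2 (show 0 ≤ xx κ / 2 by positivity)
    rw [Real.mul_rpow (by positivity) hj.2.le, ← Real.rpow_mul hε.le,
      show 2 / xx κ * (xx κ / 2) = 1 by field_simp, Real.rpow_one] at e3
    rw [hkv, Nat.log_pow one_lt_two, hh, e1, mul_left_comm]
    refine (min_le_right _ _).trans ?_
    rw [hb]
    exact mul_le_mul_of_nonneg_left e3 (by positivity)

end Vale.Agent.P164.E8
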