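import Vale.Agent.N164.Iter
import Vale.Agent.N164.Lower
import Vale.Agent.P164.H411.HP

set_option linter.all false

/-!
# The mean of the gauge measure when the series diverges
-/

namespace Vale.Agent.P164.H411

open Set Metric Filter Topology MeasureTheory ProbabilityTheory
open scoped NNReal ENNReal
open Vale.Agent.P164.E8

/-- Telescoping: if a series dominated by `p j / g j` diverges then `g K ∏_{j<K} (1 - p j)` is
small for some `K`. -/
lemma exists_small {p g t : ℕ → ℝ} (hp0 : ∀ j, 0 ≤ p j) (hp1 : ∀ j, p j ≤ 1)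
    (ht0 : ∀ j, 0 ≤ t j) {A : ℝ} (hA : 0 ≤ A) (h : ∀ j, t j * g j ≤ A * p j)
    (hns : ¬ Summable t) {η : ℝ} (hη : 0 < η) :
    ∃ K : ℕ, g K * ∏ j ∈ Finset.range K, (1 - p j) ≤ η := by
  by_contra hcon
  push Not at hcon
  have hQ : ∀ n, 0 ≤ ∏ j ∈ Finset.range n, (1 - p j) := fun n =>
    Finset.prod_nonneg fun j _ => by linarith [hp1 j]
  have key : ∀ n, η * ∑ j ∈ Finset.range n, t j ≤ A * (1 - ∏ j ∈ Finset.range n, (1 - p j)) := by
    intro n
    induction n with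
    | zero => simp
    | succ n ih =>
      rw [Finset.sum_range_succ, Finset.prod_range_succ]
      obtain ⟨Q, hQe⟩ : ∃ Q, Q = ∏ j ∈ Finset.range n, (1 - p j) := ⟨_, rfl⟩
      have h1 := hcon n
      have h2 := hQ n
      rw [← hQe] at ih h1 h2 ⊢
      have h3 : t n * η ≤ t n * (g n * Q) := mul_le_mul_of_nonneg_left h1.le (ht0 n)
      have h4 : t n * g n * Q ≤ A * p n * Q := mul_le_mul_of_nonneg_right (h n) h2
      nlinarith only [ih, h3, h4]
  refine hns (summable_of_sum_range_le (c := A / η) ht0 fun n => ?_)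
  rw [le_div_iff₀ hη]
  have h1 := key n
  have h2 := mul_nonneg hA (hQ n)
  nlinarith only [h1, h2]

/-- A stretched exponential beats every power. -/
lemma exp_pow_bdd {c p s : ℝ} (hc : 0 < c) (hp : 0 < p) (hs : 0 ≤ s) :
    ∃ B : ℝ, 0 < B ∧ ∀ w : ℝ, 0 < w → Real.exp (-c * w ^ p) * w ^ s ≤ B := by
  obtain ⟨n, hn⟩ : ∃ n : ℕ, s / p ≤ n := exists_nat_ge _
  refine ⟨1 + n.factorial / c ^ n, by positivity, fun w hw => ?_⟩
  obtain ⟨t, ht⟩ : ∃ t, t = w ^ p := ⟨_, rfl⟩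
  have ht0 : 0 < t := by rw [ht]; positivity
  have e1 : w ^ s = t ^ (s / p) := by
    rw [ht, ← Real.rpow_mul hw.le]; congr 1; field_simp
  have e2 : t ^ (s / p) ≤ 1 + t ^ n := by
    rcases le_total t 1 with h | h
    · have := Real.rpow_le_one ht0.le h (div_nonneg hs hp.le)
      have := pow_nonneg ht0.le n
      linarith
    · have := Real.rpow_le_rpow_of_exponent_le h hn
      rw [Real.rpow_natCast] at this
      linarith
  have e3 : (c * t) ^ n / n.factorial ≤ Real.exp (c * t) :=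
    Real.pow_div_factorial_le_exp _ (by positivity) n
  have e4 : Real.exp (-c * t) * Real.exp (c * t) = 1 := by rw [← Real.exp_add]; simp
  have e5 : Real.exp (-c * t) ≤ 1 := Real.exp_le_one_iff.2 (by nlinarith [mul_pos hc ht0])
  have e6 : t ^ n ≤ n.factorial / c ^ n * Real.exp (c * t) := by
    rw [div_le_iff₀ (by positivity), mul_pow] at e3
    rw [div_mul_eq_mul_div, le_div_iff₀ (by positivity)]
    linarith
  have e7 := Real.exp_pos (-c * t)
  rw [← ht, e1]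
  calc Real.exp (-c * t) * t ^ (s / p) ≤ Real.exp (-c * t) * (1 + t ^ n) := by gcongr
    _ ≤ Real.exp (-c * t) * (1 + n.factorial / c ^ n * Real.exp (c * t)) := by gcongr
    _ = Real.exp (-c * t) + n.factorial / c ^ n * (Real.exp (-c * t) * Real.exp (c * t)) := by ring
    _ ≤ 1 + n.factorial / c ^ n := by rw [e4, mul_one]; linarith

/-- Divergence along every geometric sequence of scales with ratio `e^{-b}`. -/
def ScaleDiv (κ : ℝ) (h : ℝ → ℝ) (b c Ch : ℝ) : Prop :=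
  ∀ r : ℝ, 0 < r → ¬ Summable fun j : ℕ => Real.exp (-c *
    (h (r * Real.exp (-(b * j))) / (Ch * (r * Real.exp (-(b * j))) ^ dd κ)) ^ (2 / xx κ))

lemma ScaleDiv.comp {κ : ℝ} {h : ℝ → ℝ} {b c Ch L : ℝ} (H : ScaleDiv κ h b c Ch) (hL : 0 < L) :
    ScaleDiv κ (fun r => h (L * r)) b c (Ch * L ^ dd κ) := by
  intro r hr hs
  refine H (L * r) (mul_pos hL hr) (hs.congr fun j => ?_)
  rw [mul_assoc L r, Real.mul_rpow (x := L) hL.le (by positivity), mul_assoc Ch]

/-- From the dyadic series to the scales `r e^{-bj}`. -/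
lemma scaleDiv_of {κ : ℝ} (h0 : 0 < κ) (h8 : κ < 8) {k : ℝ → ℝ} (hk : IsGauge k) {c₀ b c : ℝ}
    (hc₀ : 0 < c₀) (hb : 1 ≤ b) (hc : 0 < c)
    (hns : ¬ Summable fun n => Real.exp (-c₀ * uu κ k n ^ (2 / xx κ))) :
    ScaleDiv κ k b c (Real.exp (b * dd κ) * (c / c₀) ^ (xx κ / 2)) := by
  classical
  intro r hr hs
  have hx := xx_pos h8
  have hd : 0 < dd κ := by unfold dd; linarith
  obtain ⟨Ch, hCh⟩ : ∃ Ch, Ch = Real.exp (b * dd κ) * (c / c₀) ^ (xx κ / 2) := ⟨_, rfl⟩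
  rw [← hCh] at hs
  have hCh0 : 0 < Ch := by rw [hCh]; positivity
  obtain ⟨f, hf⟩ : ∃ f : ℕ → ℝ, f = fun j : ℕ => Real.exp (-c *
    (k (r * Real.exp (-(b * j))) / (Ch * (r * Real.exp (-(b * j))) ^ dd κ)) ^ (2 / xx κ)) :=
    ⟨_, rfl⟩
  rw [← hf] at hs
  have hf0 : ∀ j, 0 ≤ f j := fun j => by rw [hf]; exact (Real.exp_pos _).le
  obtain ⟨n₀, hn₀⟩ := exists_pow_lt_of_lt_one hr (show (1 / 2 : ℝ) < 1 by norm_num)
  have hex : ∀ n : ℕ, ∃ j : ℕ, r * Real.exp (-(b * j)) ≤ (1 / 2) ^ (n + n₀) := by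
    intro n
    have h1 : Tendsto (fun j : ℕ => r * Real.exp (-(b * j))) atTop (𝓝 (r * 0)) :=
      (Real.tendsto_exp_neg_atTop_nhds_zero.comp
        (tendsto_natCast_atTop_atTop.const_mul_atTop (by linarith))).const_mul r
    rw [mul_zero] at h1
    exact (h1.eventually (ge_mem_nhds (by positivity))).exists
  obtain ⟨J, hJ1, hJ2⟩ : ∃ J : ℕ → ℕ, (∀ n, r * Real.exp (-(b * J n)) ≤ (1 / 2) ^ (n + n₀)) ∧
      ∀ n, (1 / 2 : ℝ) ^ (n + n₀) ≤ Real.exp b * (r * Real.exp (-(b * J n))) := by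
    refine ⟨fun n => Nat.find (hex n), fun n => Nat.find_spec (hex n), fun n => ?_⟩
    have h2 : (1 / 2 : ℝ) ^ (n + n₀) ≤ (1 / 2) ^ n₀ :=
      pow_le_pow_of_le_one (by norm_num) (by norm_num) (by omega)
    rcases Nat.eq_zero_or_pos (Nat.find (hex n)) with h | h
    · have h3 := Nat.find_spec (hex n)
      rw [h] at h3
      simp only [Nat.cast_zero, mul_zero, neg_zero, Real.exp_zero, mul_one] at h3
      linarith
    · obtain ⟨i, hi⟩ : ∃ i, Nat.find (hex n) = i + 1 := ⟨Nat.find (hex n) - 1, by omega⟩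
      have h3 := Nat.find_min (hex n) (m := i) (by omega)
      dsimp only
      rw [hi]
      refine (not_le.1 h3).le.trans (le_of_eq ?_)
      rw [mul_left_comm, ← Real.exp_add]
      congr 2
      push_cast
      ring
  -- comparison of the terms
  have hterm : ∀ n, Real.exp (-c₀ * uu κ k (n + n₀) ^ (2 / xx κ)) ≤ f (J n) := by
    intro n
    rw [hf]
    refine Real.exp_le_exp.2 ?_
    obtain ⟨ρ, hρ⟩ : ∃ ρ, ρ = r * Real.exp (-(b * J n)) := ⟨_, rfl⟩
    have hρ0 : 0 < ρ := by rw [hρ]; positivity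
    have a1 := hJ1 n
    have a2 := hJ2 n
    rw [← hρ] at a1 a2 ⊢
    have hu := uu_pos κ hk (n + n₀)
    have hkρ := hk.pos ρ hρ0
    have b1 : k ρ ≤ uu κ k (n + n₀) * (Real.exp (b * dd κ) * ρ ^ dd κ) := by
      have c1 : k ρ ≤ k ((1 / 2) ^ (n + n₀)) :=
        hk.mono (mem_Ici.2 hρ0.le) (mem_Ici.2 (by positivity)) a1
      have c2 : k ((1 / 2) ^ (n + n₀)) = uu κ k (n + n₀) * ((1 / 2) ^ (n + n₀)) ^ dd κ := by
        unfold uu
        rw [div_mul_cancel₀]
        positivity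
      have c3 : ((1 / 2 : ℝ) ^ (n + n₀)) ^ dd κ ≤ Real.exp (b * dd κ) * ρ ^ dd κ := by
        rw [Real.exp_mul, ← Real.mul_rpow (Real.exp_pos b).le hρ0.le]
        exact Real.rpow_le_rpow (by positivity) a2 hd.le
      rw [c2] at c1
      exact c1.trans (mul_le_mul_of_nonneg_left c3 hu.le)
    have b2 : k ρ / (Ch * ρ ^ dd κ) ≤ uu κ k (n + n₀) / (c / c₀) ^ (xx κ / 2) := by
      rw [div_le_div_iff₀ (by positivity) (by positivity), hCh]
      have : 0 < (c / c₀) ^ (xx κ / 2) := by positivity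
      nlinarith only [b1, this]
    have b3 : (k ρ / (Ch * ρ ^ dd κ)) ^ (2 / xx κ) ≤ uu κ k (n + n₀) ^ (2 / xx κ) / (c / c₀) := by
      refine (Real.rpow_le_rpow (by positivity) b2 (by positivity)).trans (le_of_eq ?_)
      rw [Real.div_rpow hu.le (by positivity), ← Real.rpow_mul (by positivity)]
      have : xx κ / 2 * (2 / xx κ) = 1 := by field_simp
      rw [this, Real.rpow_one]
    have b4 := mul_le_mul_of_nonneg_left b3 hc.le
    have b5 : c * (uu κ k (n + n₀) ^ (2 / xx κ) / (c / c₀)) =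
        c₀ * uu κ k (n + n₀) ^ (2 / xx κ) := by field_simp
    linarith only [b4, b5]
  -- the fibres of `J` are small
  obtain ⟨L, hL⟩ := pow_unbounded_of_one_lt (Real.exp b) (show (1 : ℝ) < 2 by norm_num)
  have hfib : ∀ n n' : ℕ, J n = J n' → n' < n + L := by
    intro n n' hJ
    by_contra hcon
    have a1 := hJ1 n'
    have a2 := hJ2 n
    rw [hJ] at a2
    have a3 : (1 / 2 : ℝ) ^ (n' + n₀) ≤ (1 / 2) ^ (n + n₀ + L) :=
      pow_le_pow_of_le_one (by norm_num) (by norm_num) (by omega)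
    have a4 : (1 / 2 : ℝ) ^ (n + n₀ + L) * 2 ^ L = (1 / 2) ^ (n + n₀) := by
      rw [pow_add _ (n + n₀), mul_assoc, ← mul_pow]; norm_num
    have a5 : (0 : ℝ) < (1 / 2) ^ (n + n₀ + L) := by positivity
    have a6 := mul_le_mul_of_nonneg_left (a1.trans a3) (Real.exp_pos b).le
    have a7 := mul_lt_mul_of_pos_left hL a5
    nlinarith only [a2, a4, a6, a7]
  refine hns ((summable_nat_add_iff n₀).1 (summable_of_sum_le (c := L * ∑' j, f j)
    (fun n => (Real.exp_pos _).le) fun s => ?_))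
  calc ∑ n ∈ s, Real.exp (-c₀ * uu κ k (n + n₀) ^ (2 / xx κ)) ≤ ∑ n ∈ s, f (J n) :=
        Finset.sum_le_sum fun n _ => hterm n
    _ = ∑ j ∈ s.image J, (s.filter fun n => J n = j).card • f j := Finset.sum_comp f J
    _ ≤ ∑ j ∈ s.image J, L * f j := by
        refine Finset.sum_le_sum fun j hj => ?_
        rw [nsmul_eq_mul]
        refine mul_le_mul_of_nonneg_right ?_ (hf0 j)
        have hne : (s.filter fun n => J n = j).Nonempty := by
          obtain ⟨n, hn, rfl⟩ := Finset.mem_image.1 hj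
          exact ⟨n, Finset.mem_filter.2 ⟨hn, rfl⟩⟩
        have hm := Finset.mem_filter.1 (Finset.min'_mem _ hne)
        have hsub : (s.filter fun n => J n = j) ⊆
            Finset.Ico ((s.filter fun n => J n = j).min' hne)
              ((s.filter fun n => J n = j).min' hne + L) := fun n hn =>
          Finset.mem_Ico.2 ⟨Finset.min'_le _ _ hn,
            hfib _ _ (hm.2.trans (Finset.mem_filter.1 hn).2.symm)⟩
        have := Finset.card_le_card hsub
        rw [Nat.card_Ico, Nat.add_sub_cancel_left] at this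
        exact_mod_cast this
    _ ≤ L * ∑' j, f j := by
        rw [← Finset.mul_sum]
        exact mul_le_mul_of_nonneg_left (hs.sum_le_tsum _ fun j _ => hf0 j) (Nat.cast_nonneg L)

/-- The mean of the measure of the trace in `closedBall (a+i) (3/5)`. -/
theorem upper_meanV {κ : ℝ} (h0 : 0 < κ) (h4 : κ < 8) :
    ∃ b c C : ℝ, 1 ≤ b ∧ 0 < c ∧ 0 < C ∧ ∀ {h : ℝ → ℝ} (_ : IsGauge h) {Ch : ℝ} (_ : 0 < Ch)
      (_ : ScaleDiv κ h b c Ch)
      {Ω : Type*} [MeasurableSpace Ω] {P : Measure Ω} {W : ℝ → Ω → ℝ}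
      (_ : IsDrv κ P W) {γ : Ω → ℝ → ℂ} (_ : ∀ᵐ ω ∂P, IsTrace (fun u => W u ω) (γ ω))
      {a T : ℝ} (_ : 0 < T),
      MeanLe P (fun ω => gaugeMeasure h (γ ω '' Icc 0 T ∩ closedBall (ctr a) (3 / 5)))
        (ENNReal.ofReal (Ch * C)) := by
  obtain ⟨b, C, R₀, D, hb, hC, hR₀, hD, Hbad⟩ := bad_cellV h0 h4
  obtain ⟨C', hC', Hcov⟩ := coverV h0 h4 hb hC
  have hx := xx_pos h4
  have hpa := Approach_pa_pos h0 h4
  have hbe := Approach_be_pos h0 h4
  have hd : 0 < dd κ := by unfold dd; linarith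
  have hC0 : 0 < C := by linarith
  have hsc : ∀ A : ℝ, Tendsto (fun n : ℕ => A * Real.exp (-(n : ℝ))) atTop (𝓝 0) := fun A => by
    have := (Real.tendsto_exp_neg_atTop_nhds_zero.comp tendsto_natCast_atTop_atTop).const_mul A
    rwa [mul_zero] at this
  obtain ⟨n₀, hn₀⟩ := eventually_atTop.1 (((hsc C).eventually (gt_mem_nhds
    (show (0 : ℝ) < 1 / 4 by norm_num))).and ((hsc C').eventually (gt_mem_nhds
    (show (0 : ℝ) < 1 / 100 by norm_num))))
  obtain ⟨η, hη⟩ : ∃ η : ℝ, η = 1 / (80000 * Real.exp 2 * (10 * C) ^ dd κ * D) := ⟨_, rfl⟩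
  have hη0 : 0 < η := by rw [hη]; positivity
  obtain ⟨B, hB0, hB⟩ := exp_pow_bdd (c := 1) (p := 2 / xx κ) (s := 1 + be κ / pa κ) one_pos
    (by positivity) (by positivity)
  refine ⟨b, C + 1, 100 * C' + 1, hb, by positivity, by positivity, ?_⟩
  intro h hh' Ch hCh hdiv Ω _ P W hW γ hγ a T hT
  have hP : IsProbabilityMeasure P := hW.prob
  have key : ∀ n : ℕ, n₀ ≤ n → MeanLe P (fun ω => pre h (C' * Real.exp (-(n : ℝ)))
      (γ ω '' Icc 0 T ∩ closedBall (ctr a) (3 / 5))) (ENNReal.ofReal (Ch * (100 * C' + 1))) := by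
    intro n hn
    obtain ⟨a1, a2⟩ := hn₀ n hn
    obtain ⟨u₀, hu₀⟩ : ∃ u₀ : ℝ, u₀ = -(n : ℝ) := ⟨_, rfl⟩
    rw [← hu₀] at a1 a2 ⊢
    have hu₀0 : u₀ ≤ 0 := by rw [hu₀]; simp
    obtain ⟨w, hw⟩ : ∃ w : ℕ → ℝ, w = fun j : ℕ => h (10 * C * Real.exp (u₀ - b * j)) /
      (Ch * (10 * C * Real.exp (u₀ - b * j)) ^ dd κ) := ⟨_, rfl⟩
    have hw0 : ∀ j, 0 < w j := fun j => by
      have := hh'.pos (10 * C * Real.exp (u₀ - b * j)) (by positivity)
      rw [hw]; positivity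
    have hwe : ∀ j : ℕ, h (10 * C * Real.exp (u₀ - b * j)) =
        Ch * w j * (10 * C * Real.exp (u₀ - b * j)) ^ dd κ := fun j => by
      rw [hw]; field_simp
    have hns : ¬ Summable fun j => Real.exp (-(C + 1) * w j ^ (2 / xx κ)) := by
      intro hs
      refine hdiv (10 * C * Real.exp u₀) (by positivity) (hs.congr fun j => ?_)
      rw [hw, mul_assoc (10 * C), ← Real.exp_add, ← sub_eq_add_neg]
    obtain ⟨R, hR⟩ : ∃ R : ℕ → ℝ, R = fun j => max R₀ (w j ^ (1 / xx κ)) := ⟨_, rfl⟩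
    have hRR : ∀ j, R₀ ≤ R j := fun j => by rw [hR]; exact le_max_left _ _
    have hR0 : ∀ j, 0 < R j := fun j => by linarith [hRR j]
    have hRw : ∀ j, w j ≤ R j ^ xx κ := fun j => by
      have h1 : w j ^ (1 / xx κ) ≤ R j := by rw [hR]; exact le_max_right _ _
      have h2 := Real.rpow_le_rpow (Real.rpow_nonneg (hw0 j).le _) h1 hx.le
      rwa [← Real.rpow_mul (hw0 j).le, one_div_mul_cancel hx.ne', Real.rpow_one] at h2
    have hR2 : ∀ j, R j ^ 2 ≤ R₀ ^ 2 + w j ^ (2 / xx κ) := fun j => by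
      have h1 : (w j ^ (1 / xx κ)) ^ 2 = w j ^ (2 / xx κ) := by
        rw [← Real.rpow_two, ← Real.rpow_mul (hw0 j).le]; congr 1; ring
      have h2 : 0 ≤ w j ^ (2 / xx κ) := Real.rpow_nonneg (hw0 j).le _
      rw [hR]
      dsimp only
      rcases max_cases R₀ (w j ^ (1 / xx κ)) with h3 | h3
      · rw [h3.1]; linarith
      · rw [h3.1, h1]; nlinarith
    obtain ⟨K, hK⟩ := exists_small (p := fun j => Real.exp (-C * R j ^ 2) / C)
      (g := fun j => w j ^ (1 + be κ / pa κ)) (fun j => by positivity)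
      (fun j => by linarith [(badCell_q (R := R j) hC le_rfl).1])
      (fun j => (Real.exp_pos _).le) (A := B * C * Real.exp (C * R₀ ^ 2)) (by positivity)
      (fun j => by
        have h1 : Real.exp (-(C + 1) * w j ^ (2 / xx κ)) =
            Real.exp (-C * w j ^ (2 / xx κ)) * Real.exp (-1 * w j ^ (2 / xx κ)) := by
          rw [← Real.exp_add]; congr 1; ring
        have h2 : Real.exp (-C * w j ^ (2 / xx κ)) ≤
            Real.exp (C * R₀ ^ 2) * Real.exp (-C * R j ^ 2) := by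
          rw [← Real.exp_add]
          refine Real.exp_le_exp.2 ?_
          nlinarith only [hR2 j, hC0]
        have h3 := mul_le_mul h2 (hB (w j) (hw0 j)) (by have := hw0 j; positivity) (by positivity)
        rw [h1, mul_assoc]
        refine h3.trans (le_of_eq ?_)
        field_simp) hns (η := η ^ (1 + be κ / pa κ)) (by positivity)
    obtain ⟨Q, hQ⟩ : ∃ Q : ℝ, Q = ∏ k ∈ Finset.range K, (1 - Real.exp (-C * R k ^ 2) / C) :=
      ⟨_, rfl⟩
    have hQ0 : 0 ≤ Q := by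
      rw [hQ]
      exact Finset.prod_nonneg fun k _ => (badCell_q (R := R k) hC le_rfl).1
    rw [← hQ] at hK
    have hwK := hw0 K
    obtain ⟨θ, hθ⟩ : ∃ θ : ℝ, θ = (η / w K) ^ (1 / pa κ) := ⟨_, rfl⟩
    have hθ0 : 0 < θ := by rw [hθ]; positivity
    have t1 : w K * θ ^ pa κ = η := by
      rw [hθ, ← Real.rpow_mul (by positivity), one_div_mul_cancel hpa.ne', Real.rpow_one]
      field_simp
    have t2 : w K * (θ ^ (-be κ) * Q) ≤ η := by
      have s1 : θ ^ (-be κ) = w K ^ (be κ / pa κ) / η ^ (be κ / pa κ) := by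
        rw [hθ, ← Real.rpow_mul (by positivity), show 1 / pa κ * -be κ = -(be κ / pa κ) by ring,
          Real.rpow_neg (by positivity), Real.div_rpow hη0.le hwK.le, inv_div]
      rw [Real.rpow_add hwK, Real.rpow_add hη0, Real.rpow_one, Real.rpow_one] at hK
      rw [s1, div_mul_eq_mul_div, ← mul_div_assoc, div_le_iff₀ (by positivity)]
      linarith
    obtain ⟨Rm, hRm⟩ : ∃ Rm : ℝ, Rm = 1 + ∑ k ∈ Finset.range K, R k := ⟨_, rfl⟩
    have hsum0 : 0 ≤ ∑ k ∈ Finset.range K, R k := Finset.sum_nonneg fun k _ => (hR0 k).le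
    have hRm0 : 0 < Rm := by rw [hRm]; linarith
    obtain ⟨ε, hε⟩ : ∃ ε : ℝ, ε = Real.exp (u₀ - b * K) / (C * Rm) := ⟨_, rfl⟩
    have hε0 : 0 < ε := by rw [hε]; positivity
    have hεk : ∀ k < K, ε ≤ Real.exp (u₀ - b * K) / (C * R k) := fun k hk => by
      have h1 : R k ≤ ∑ k ∈ Finset.range K, R k :=
        Finset.single_le_sum (fun k _ => (hR0 k).le) (Finset.mem_range.2 hk)
      have h2 := hR0 k
      rw [hε]
      exact div_le_div_of_nonneg_left (Real.exp_pos _).le (by positivity)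
        (mul_le_mul_of_nonneg_left (by rw [hRm]; linarith) hC0.le)
    have hbK : 0 ≤ b * K := by positivity
    have hl := level_mean (a := a) h0 h4 hW hγ hT (h := h) (C' := C') (b := b) (u₀ := u₀)
      (ε := ε) (Ch := Ch) (q := D * (θ ^ (-be κ) * Q + θ ^ pa κ))
      (H := Ch * w K * (10 * C) ^ dd κ) (δ := C' * Real.exp u₀) (K := K)
      (bad := fun ω z => (∃ t ∈ Icc 0 T, z ∈ loewnerDomain (fun v => W v ω) t ∧
          Uf (fun v => W v ω) z t < u₀ - b * K - 1) ∧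
        ∀ k < K, mu κ ε (fun v => W v ω) (ball z (C * Real.exp (u₀ - b * k))) 0 T <
            R k ^ xx κ * Real.exp (dd κ * (u₀ - b * k)) / C)
      (by linarith only [hC']) hε0 hCh (by linarith) (by positivity) ?_ ?_ ?_ (by positivity)
    · refine MeanLe.mono hl (Eventually.of_forall fun ω => le_rfl) (ENNReal.ofReal_le_ofReal ?_)
      have h9 : 40000 * Real.exp 2 * (Ch * w K * (10 * C) ^ dd κ *
          (D * (θ ^ (-be κ) * Q + θ ^ pa κ))) = Ch * (40000 * Real.exp 2 * (10 * C) ^ dd κ * D *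
            (w K * (θ ^ (-be κ) * Q) + w K * θ ^ pa κ)) := by ring
      have h10 : 40000 * Real.exp 2 * (10 * C) ^ dd κ * D *
          (w K * (θ ^ (-be κ) * Q) + w K * θ ^ pa κ) ≤
          40000 * Real.exp 2 * (10 * C) ^ dd κ * D * (2 * η) :=
        mul_le_mul_of_nonneg_left (by linarith) (by positivity)
      have h11 : 40000 * Real.exp 2 * (10 * C) ^ dd κ * D * (2 * η) = 1 := by
        rw [hη]; field_simp; norm_num
      rw [h11] at h10
      have h12 := mul_le_mul_of_nonneg_left h10 hCh.le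
      rw [h9]
      linarith
    · intro ω hω
      refine Hcov hh' (hW.cont ω) hω hT a2.le hε0 hCh fun k _ => ?_
      rw [hwe k]
      have := hRw k
      gcongr
    · intro z hz
      have him := lattA_im hz
      have hbad := Hbad hW (z := z) (T := T) (u₀ := u₀) (R := R) (ε := ε) (θ := θ)
        (K := K) hT (by linarith only [him]) a1 hRR hε0 hεk hθ0
      rw [← hQ] at hbad
      refine le_trans (measure_mono ?_) hbad
      intro ω hb'
      refine ⟨hb'.1, mem_iInter₂.2 fun k hk => ?_⟩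
      exact hb'.2 k (Finset.mem_range.1 hk)
    · have h1 := Real.exp_pos (u₀ - b * K)
      refine (hh'.mono (mem_Ici.2 h1.le) (mem_Ici.2 (by positivity :
        (0 : ℝ) ≤ 10 * C * Real.exp (u₀ - b * K))) (by nlinarith only [h1, hC])).trans ?_
      rw [hwe K, Real.mul_rpow (by positivity) h1.le, ← Real.exp_mul, mul_comm (u₀ - b * K)]
      exact le_of_eq (by ring)
  refine MeanLe.fatou (fun n : ℕ => key (n + n₀) (by omega)) (Eventually.of_forall fun ω => ?_)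
  refine gaugeMeasure_le fun δ hδ => ?_
  refine le_liminf_of_le (by isBoundedDefault) ?_
  have h1 := (hsc C').comp (tendsto_add_atTop_nat n₀)
  filter_upwards [h1.eventually (gt_mem_nhds hδ)] with n hn
  exact pre_anti h hn.le _

/-- The mean of the gauge measure of a Lipschitz image of the whole trace in a subset of the ball of
radius `3/5 Im z` about `z`. -/
theorem box_meanV {κ : ℝ} (h0 : 0 < κ) (h8 : κ < 8) :
    ∃ b c C : ℝ, 1 ≤ b ∧ 0 < c ∧ 0 < C ∧ ∀ {k : ℝ → ℝ} (_ : IsGauge k) {C₀ : ℝ} (_ : 0 < C₀)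
      (_ : ScaleDiv κ k b c C₀)
      {Ω : Type*} [MeasurableSpace Ω] {P : Measure Ω} {W : ℝ → Ω → ℝ}
      (_ : IsDrv κ P W) {γ : Ω → ℝ → ℂ} (_ : ∀ᵐ ω ∂P, IsTrace (fun u => W u ω) (γ ω))
      {z : ℂ} (_ : 0 < z.im) {f : ℂ → ℂ} {L : ℝ} (_ : 0 < L) {Q : Set ℂ}
      (_ : Q ⊆ closedBall z (3 / 5 * z.im))
      (_ : ∀ x ∈ Q, ∀ y ∈ Q, dist (f x) (f y) ≤ L * dist x y),
      MeanLe P (fun ω => gaugeMeasure k (f '' (γ ω '' Ici 0 ∩ Q)))
        (ENNReal.ofReal (C₀ * C * (L * z.im) ^ dd κ)) := by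
  obtain ⟨b, c, C, hb, hc, hC, H⟩ := upper_meanV h0 h8
  refine ⟨b, c, C, hb, hc, hC, ?_⟩
  intro k hk C₀ hC₀ hkO Ω _ P W hW γ hγ z hz f L hL Q hQ hf
  set y : ℝ := z.im with hydef
  set a : ℝ := z.re / z.im with hadef
  have hy : 0 < y := hz
  have hzc : ((y : ℝ) : ℂ) * ctr a = z := by
    have h1 : ((z.im : ℝ) : ℂ) ≠ 0 := by exact_mod_cast hz.ne'
    rw [hydef, hadef, ctr, mul_add, Complex.ofReal_div, mul_div_cancel₀ _ h1, Complex.re_add_im]
  have hγ' : ∀ᵐ ω ∂P, IsTrace (fun u => scaleP y W u ω)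
      ((fun ω t => (y : ℂ)⁻¹ * γ ω (y ^ 2 * t)) ω) := by
    filter_upwards [hγ] with ω h1
    exact h1.scale hy
  have hy2 : 0 < y ^ 2 := by positivity
  have hyc : (y : ℂ) ≠ 0 := by exact_mod_cast hy.ne'
  have hyn : ‖(y : ℂ)‖ = y := by rw [Complex.norm_real, Real.norm_of_nonneg hy.le]
  have hLy : 0 < L * y := mul_pos hL hy
  have hLd : 0 < (L * y) ^ dd κ := Real.rpow_pos_of_pos hLy _
  have h1 : ∀ n : ℕ, MeanLe P (fun ω => gaugeMeasure k (f '' (γ ω '' Icc 0 ((n : ℝ) + 1) ∩ Q)))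
      (ENNReal.ofReal (C₀ * C * (L * y) ^ dd κ)) := by
    intro n
    have hT : (0 : ℝ) < n + 1 := by positivity
    refine MeanLe.mono (H (gauge_comp hk hLy) (Ch := C₀ * (L * y) ^ dd κ) (by positivity)
      (hkO.comp hLy) (hW.scale hy) hγ' (a := a) (div_pos hT hy2))
      (Eventually.of_forall fun ω => ?_) (ENNReal.ofReal_le_ofReal (le_of_eq (by ring)))
    have hsub : f '' (γ ω '' Icc 0 ((n : ℝ) + 1) ∩ Q) ⊆
        (fun w => f ((y : ℂ) * w)) '' (((fun t => (y : ℂ)⁻¹ * γ ω (y ^ 2 * t)) ''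
          Icc 0 (((n : ℝ) + 1) / y ^ 2) ∩ closedBall (ctr a) (3 / 5)) ∩ {w | (y : ℂ) * w ∈ Q}) := by
      rintro _ ⟨_, ⟨⟨t, ht, rfl⟩, htQ⟩, rfl⟩
      refine ⟨(y : ℂ)⁻¹ * γ ω t, ⟨⟨⟨t / y ^ 2, ⟨div_nonneg ht.1 hy2.le,
        div_le_div_of_nonneg_right ht.2 hy2.le⟩, ?_⟩, ?_⟩, ?_⟩, ?_⟩
      · simp only
        rw [mul_div_cancel₀ _ hy2.ne']
      · have hb := hQ htQ
        rw [← hzc, mem_closedBall, dist_eq_norm] at hb
        rw [mem_closedBall, dist_eq_norm]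
        have e : γ ω t - (y : ℂ) * ctr a = (y : ℂ) * ((y : ℂ)⁻¹ * γ ω t - ctr a) := by
          rw [mul_sub, mul_inv_cancel_left₀ hyc]
        rw [e, norm_mul, hyn] at hb
        nlinarith only [hb, hy]
      · change (y : ℂ) * ((y : ℂ)⁻¹ * γ ω t) ∈ Q
        rw [mul_inv_cancel_left₀ hyc]
        exact htQ
      · simp only
        rw [mul_inv_cancel_left₀ hyc]
    refine (gaugeMeasure_mono k hsub).trans ((gm_lip_k hk hLy ?_).trans
      (gaugeMeasure_mono _ inter_subset_left))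
    intro x hx x' hx'
    refine (hf _ hx.2 _ hx'.2).trans (le_of_eq ?_)
    rw [dist_eq_norm, dist_eq_norm, ← mul_sub, norm_mul, hyn]
    ring
  refine MeanLe.fatou h1 (Eventually.of_forall fun ω => ?_)
  have hmono : Monotone fun n : ℕ => f '' (γ ω '' Icc 0 ((n : ℝ) + 1) ∩ Q) := by
    intro m n hmn
    refine image_mono (inter_subset_inter_left _ (image_mono (Icc_subset_Icc_right ?_)))
    have : (m : ℝ) ≤ n := by exact_mod_cast hmn
    linarith
  have hU : f '' (γ ω '' Ici 0 ∩ Q) = ⋃ n : ℕ, f '' (γ ω '' Icc 0 ((n : ℝ) + 1) ∩ Q) := by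
    rw [← image_iUnion, ← iUnion_inter, ← image_iUnion]
    congr 3
    ext t
    rw [mem_Ici, mem_iUnion]
    constructor
    · intro ht
      obtain ⟨n, hn⟩ := exists_nat_ge t
      exact ⟨n, ht, by linarith⟩
    · rintro ⟨n, hn⟩
      exact hn.1
  rw [hU, gm_iUnion hk hmono]
  have hm2 : Monotone fun n : ℕ => gaugeMeasure k (f '' (γ ω '' Icc 0 ((n : ℝ) + 1) ∩ Q)) :=
    fun m n hmn => gaugeMeasure_mono k (hmono hmn)
  exact (tendsto_atTop_iSup hm2).liminf_eq.ge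

/-- The mean bound in every domain. -/
theorem mean_domV {κ : ℝ} (h0 : 0 < κ) (h8 : κ < 8) :
    ∃ b c K : ℝ, 1 ≤ b ∧ 0 < c ∧ 0 < K ∧ ∀ {h : ℝ → ℝ} (_ : IsGauge h) {C₀ : ℝ} (_ : 0 < C₀)
      (_ : ScaleDiv κ h b c C₀)
      {Ω : Type*} [MeasurableSpace Ω] {P : Measure Ω} {W : ℝ → Ω → ℝ}
      (_ : IsDrv κ P W) {γ : Ω → ℝ → ℂ} (_ : ∀ᵐ ω ∂P, IsTrace (fun u => W u ω) (γ ω))
      {φ : ℂ → ℂ} (_ : IsConfMap φ) (A : Set ℂ),
      MeanLe P (fun ω => gaugeMeasure h (domTrace φ (γ ω) (Ici 0) ∩ A))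
        (ENNReal.ofReal (C₀ * K) * ∫⁻ w in shadow (φ '' uhp) A,
          ENNReal.ofReal (infDist w (φ '' uhp)ᶜ) ^ (κ / 8 - 1)) := by
  classical
  obtain ⟨b, c, C, hb₀, hc, hC, H⟩ := box_meanV h0 h8
  refine ⟨b, c, 144 * C * (2 * 2560 ^ 2), hb₀, hc, by positivity, ?_⟩
  intro h hh' C₀ hC₀ hO Ω _ P W hW γ hγ φ hφ A
  -- one square
  have hsq : ∀ i : ℤ × ℤ × ℤ, MeanLe P
      (fun ω => gaugeMeasure h (domTrace φ (γ ω) (Ici 0) ∩ (φ '' wsq i ∩ A)))
      (if (φ '' wsq i ∩ A).Nonempty then ENNReal.ofReal (C₀ * (144 * C * (2 * 2560 ^ 2))) *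
        ∫⁻ w in φ '' wsq i, ENNReal.ofReal (infDist w (φ '' uhp)ᶜ) ^ (κ / 8 - 1) else 0) := by
    intro i
    split_ifs with hne
    · obtain ⟨_, ⟨z₀, hz₀, rfl⟩, ha⟩ := hne
      have hy := wsq_im hz₀
      have hb := bd_pos hφ hy
      have hsub : wsq i ⊆ closedBall z₀ (z₀.im / 100) := by
        intro z hz
        rw [mem_closedBall, dist_comm]
        have := wsq_dist hz₀ hz
        linarith
      have hL : 0 < 12 * bd φ z₀ / z₀.im := by positivity
      refine MeanLe.mono (H hh' hC₀ hO hW hγ (z := z₀) hy (f := φ) hL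
        (Q := wsq i) (hsub.trans (closedBall_subset_closedBall (by linarith)))
        (fun x hx y hy' => (dstr hφ hy).2 x (hsub hx) y (hsub hy')))
        (Eventually.of_forall fun ω => ?_) ?_
      · exact gaugeMeasure_mono h fun x hx =>
          domTrace_inter hφ _ _ _ (fun z hz => wsq_im hz) ⟨hx.1, hx.2.1⟩
      · refine le_trans ?_ (mul_le_mul_right (sq_int h0 h8 hφ hz₀) _)
        rw [← ENNReal.ofReal_mul (by positivity)]
        apply ENNReal.ofReal_le_ofReal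
        have hd : dd κ = 1 + κ / 8 := rfl
        have h1 : (12 * bd φ z₀ / z₀.im * z₀.im) ^ dd κ = 12 ^ dd κ * bd φ z₀ ^ dd κ := by
          rw [div_mul_cancel₀ _ hy.ne', Real.mul_rpow (by norm_num) hb.le]
        have h2 : (12 : ℝ) ^ dd κ ≤ 144 := by
          calc (12 : ℝ) ^ dd κ ≤ (12 : ℝ) ^ (2 : ℝ) :=
                Real.rpow_le_rpow_of_exponent_le (by norm_num) (by rw [hd]; linarith)
            _ = 144 := by norm_num
        have h3 : 0 ≤ bd φ z₀ ^ dd κ := Real.rpow_nonneg hb.le _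
        calc C₀ * C * (12 * bd φ z₀ / z₀.im * z₀.im) ^ dd κ
            = C₀ * C * (12 ^ dd κ * bd φ z₀ ^ dd κ) := by rw [h1]
          _ ≤ C₀ * C * (144 * bd φ z₀ ^ dd κ) := by gcongr
          _ = C₀ * (144 * C * (2 * 2560 ^ 2)) * (bd φ z₀ ^ (1 + κ / 8) / (2 * 2560 ^ 2)) := by
              rw [← hd]
              field_simp
    · rw [not_nonempty_iff_eq_empty] at hne
      refine ⟨fun _ => 0, measurable_const, Eventually.of_forall fun ω => ?_, by simp⟩
      have h2 := gmM_apply hh' ∅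
      rw [measure_empty] at h2
      simp only [hne, inter_empty, ← h2, le_refl]
  refine MeanLe.mono (MeanLe.tsum hsq) (Eventually.of_forall fun ω => ?_) ?_
  · have hcov : domTrace φ (γ ω) (Ici 0) ∩ A ⊆
        ⋃ i, domTrace φ (γ ω) (Ici 0) ∩ (φ '' wsq i ∩ A) := by
      rintro x ⟨hx, hxA⟩
      obtain ⟨z, ⟨hz1, hz2⟩, rfl⟩ := hx
      have h1 : z ∈ ⋃ i, wsq i := by rw [wsq_cover]; exact hz2
      obtain ⟨i, hi⟩ := mem_iUnion.1 h1
      exact mem_iUnion.2 ⟨i, ⟨z, ⟨hz1, hz2⟩, rfl⟩, ⟨z, hi, rfl⟩, hxA⟩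
    exact (gaugeMeasure_mono h hcov).trans (gaugeMeasure_iUnion_le hh' _)
  · set f : ℂ → ℝ≥0∞ := fun w => ENNReal.ofReal (infDist w (φ '' uhp)ᶜ) ^ (κ / 8 - 1) with hf
    set B : ℤ × ℤ × ℤ → Set ℂ := fun i => if (φ '' wsq i ∩ A).Nonempty then φ '' wsq i else ∅
      with hB
    have hmeas : ∀ i, MeasurableSet (φ '' wsq i) := fun i =>
      (wsq_meas i).image_of_continuousOn_injOn
        (hφ.1.continuousOn.mono fun z hz => wsq_im hz) (hφ.2.mono fun z hz => wsq_im hz)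
    have hBm : ∀ i, MeasurableSet (B i) := by
      intro i
      simp only [hB]
      split_ifs
      · exact hmeas i
      · exact MeasurableSet.empty
    have hBd : Pairwise (Function.onFun Disjoint B) := by
      intro i j hij
      have h1 : Disjoint (φ '' wsq i) (φ '' wsq j) := by
        rw [Set.disjoint_left]
        rintro _ ⟨z, hz, rfl⟩ ⟨z', hz', he⟩
        have := hφ.2 (wsq_im hz') (wsq_im hz) he
        subst this
        exact Set.disjoint_left.1 (wsq_disj hij) hz hz'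
      simp only [Function.onFun, hB]
      split_ifs
      · exact h1
      · exact disjoint_empty _
      · exact empty_disjoint _
      · exact disjoint_empty _
    have hBs : (⋃ i, B i) ⊆ shadow (φ '' uhp) A := by
      refine iUnion_subset fun i => ?_
      simp only [hB]
      split_ifs with hne
      · obtain ⟨_, ⟨z₀, hz₀, rfl⟩, ha⟩ := hne
        have hy := wsq_im hz₀
        have hb := bd_pos hφ hy
        rintro _ ⟨z, hz, rfl⟩
        refine ⟨⟨z, wsq_im hz, rfl⟩, φ z₀, ha, ?_⟩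
        have hsub : wsq i ⊆ closedBall z₀ (z₀.im / 100) := by
          intro z hz
          rw [mem_closedBall, dist_comm]
          have := wsq_dist hz₀ hz
          linarith
        have h1 := (dstr hφ hy).2 z (hsub hz) z₀ (hsub hz₀)
        have h2 := ((dstr hφ hy).1 z (hsub hz)).2.2.2.1
        have h3 : dist z z₀ ≤ z₀.im / 128 := by rw [dist_comm]; exact wsq_dist hz₀ hz
        have h4 : 12 * bd φ z₀ / z₀.im * dist z z₀ ≤ 12 * bd φ z₀ / 128 := by
          calc 12 * bd φ z₀ / z₀.im * dist z z₀ ≤ 12 * bd φ z₀ / z₀.im * (z₀.im / 128) := by gcongr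
            _ = 12 * bd φ z₀ / 128 := by field_simp
        change 2 * dist (φ z) (φ z₀) ≤ bd φ z
        linarith
      · exact empty_subset _
    calc (∑' i, if (φ '' wsq i ∩ A).Nonempty then ENNReal.ofReal (C₀ * (144 * C * (2 * 2560 ^ 2))) *
          ∫⁻ w in φ '' wsq i, f w else 0)
        = ∑' i, ENNReal.ofReal (C₀ * (144 * C * (2 * 2560 ^ 2))) * ∫⁻ w in B i, f w := by
          refine tsum_congr fun i => ?_
          simp only [hB]
          split_ifs
          · rfl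
          · simp
      _ = ENNReal.ofReal (C₀ * (144 * C * (2 * 2560 ^ 2))) * ∫⁻ w in ⋃ i, B i, f w := by
          rw [ENNReal.tsum_mul_left, lintegral_iUnion hBm hBd]
      _ ≤ _ := mul_le_mul_right (lintegral_mono_set hBs) _

/-- If the series diverges then `k(r) = o(r)` along a sequence. -/
lemma lim_of_div {κ : ℝ} (h0 : 0 < κ) (h8 : κ < 8) {k : ℝ → ℝ} (hk : IsGauge k) {c₀ : ℝ}
    (hc₀ : 0 < c₀) (hns : ¬ Summable fun n => Real.exp (-c₀ * uu κ k n ^ (2 / xx κ))) :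
    ∀ ε : ℝ, 0 < ε → ∀ δ : ℝ, 0 < δ → ∃ r : ℝ, 0 < r ∧ r ≤ δ ∧ k r ≤ ε * r := by
  intro ε hε δ hδ
  by_contra hcon
  push Not at hcon
  have hx := xx_pos h8
  obtain ⟨B, hB0, hB⟩ := exp_pow_bdd (c := c₀) (p := 2 / xx κ) (s := 1) hc₀ (by positivity)
    zero_le_one
  obtain ⟨n₀, hn₀⟩ := exists_pow_lt_of_lt_one hδ (show (1 / 2 : ℝ) < 1 by norm_num)
  have hq : Summable fun n : ℕ => B / ε * ((1 / 2 : ℝ) ^ (κ / 8)) ^ (n + n₀) :=
    ((summable_nat_add_iff n₀).2 (summable_geometric_of_lt_one (by positivity)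
      (Real.rpow_lt_one (by norm_num) (by norm_num) (by positivity)))).mul_left _
  refine hns ((summable_nat_add_iff n₀).1
    (Summable.of_nonneg_of_le (fun n => (Real.exp_pos _).le) (fun n => ?_) hq))
  obtain ⟨r, hr⟩ : ∃ r : ℝ, r = (1 / 2) ^ (n + n₀) := ⟨_, rfl⟩
  have hr0 : 0 < r := by rw [hr]; positivity
  have h1 := hcon r hr0 (by
    rw [hr]
    exact (pow_le_pow_of_le_one (by norm_num) (by norm_num) (by omega)).trans hn₀.le)
  have h2 := hB _ (uu_pos κ hk (n + n₀))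
  rw [Real.rpow_one] at h2
  have h3 : ((1 / 2 : ℝ) ^ (κ / 8)) ^ (n + n₀) = r ^ (κ / 8) := by
    rw [hr, ← Real.rpow_natCast, ← Real.rpow_natCast, ← Real.rpow_mul (by norm_num),
      ← Real.rpow_mul (by norm_num), mul_comm]
  have h4 : uu κ k (n + n₀) = k r / (r * r ^ (κ / 8)) := by
    unfold uu dd
    rw [← hr, Real.rpow_add hr0, Real.rpow_one]
  have h5 : 0 < r ^ (κ / 8) := by positivity
  have h6 : ε / r ^ (κ / 8) ≤ uu κ k (n + n₀) := by
    rw [h4, div_le_div_iff₀ h5 (by positivity)]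
    nlinarith only [h1, h5]
  have h7 := (mul_le_mul_of_nonneg_left h6 (Real.exp_pos _).le).trans h2
  rw [h3, div_mul_eq_mul_div, le_div_iff₀ hε]
  rwa [← mul_div_assoc, div_le_iff₀ h5] at h7

/-- The mean bound in balls centred on the real line. -/
theorem mean_hpV {κ : ℝ} (h0 : 0 < κ) (h8 : κ < 8) :
    ∃ K : ℝ, 0 < K ∧ ∀ {k : ℝ → ℝ} (_ : IsGauge k) {c₀ : ℝ} (_ : 0 < c₀)
      (_ : ¬ Summable fun n => Real.exp (-c₀ * uu κ k n ^ (2 / xx κ)))
      {Ω : Type*} [MeasurableSpace Ω] {P : Measure Ω} {W : ℝ → Ω → ℝ}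
      (_ : IsDrv κ P W) {γ : Ω → ℝ → ℂ} (_ : ∀ᵐ ω ∂P, IsTrace (fun u => W u ω) (γ ω))
      (x : ℝ) {R : ℝ} (_ : 0 < R),
      MeanLe P (fun ω => gaugeMeasure k (γ ω '' Ici 0 ∩ closedBall (x : ℂ) R))
        (ENNReal.ofReal (K / c₀ ^ (xx κ / 2) * R ^ (1 + κ / 8))) := by
  obtain ⟨b, c, K, hb, hc, hK, H⟩ := mean_domV h0 h8
  refine ⟨Real.exp (b * dd κ) * c ^ (xx κ / 2) * K * (64 / κ), by positivity, ?_⟩
  intro k hk c₀ hc₀ hns Ω _ P W hW γ hγ x R hR
  have h1 := H hk (by positivity) (scaleDiv_of h0 h8 hk hc₀ hb hc hns) hW hγ conf_id (closedBall (x : ℂ) R)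
  rw [image_id_uhp] at h1
  refine MeanLe.mono h1 ?_ ?_
  · filter_upwards [hγ] with ω hω
    have hsub : γ ω '' Ici 0 ∩ closedBall (x : ℂ) R ⊆
        (domTrace (fun z => z) (γ ω) (Ici 0) ∩ closedBall (x : ℂ) R) ∪ {z : ℂ | z.im = 0} := by
      rintro z ⟨⟨t, ht, rfl⟩, hz⟩
      rcases eq_or_lt_of_le (hω.im_nonneg t ht) with h2 | h2
      · exact Or.inr h2.symm
      · exact Or.inl ⟨⟨γ ω t, ⟨⟨t, ht, rfl⟩, h2⟩, rfl⟩, hz⟩
    refine (gaugeMeasure_mono k hsub).trans ?_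
    rw [← gmM_apply hk]
    refine (measure_union_le _ _).trans ?_
    rw [gmM_apply hk, gmM_apply hk, gm_real_line hk (lim_of_div h0 h8 hk hc₀ hns), add_zero]
  · refine (mul_le_mul_right (hp_int h0 h8 x hR) _).trans (le_of_eq ?_)
    rw [← ENNReal.ofReal_mul (by positivity), Real.div_rpow hc.le hc₀.le]
    congr 1
    ring

end Vale.Agent.P164.H411
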