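import Vale.Agent.N164.Defs
import Vale.Agent.N164.Seq
import Vale.Agent.N164.Upper
import Vale.Agent.P164R.Main

set_option linter.all false

/-!
# The series test for all gauges
-/

namespace Vale.Agent.N164

open Set Metric Filter Topology MeasureTheory ProbabilityTheory
open scoped NNReal ENNReal
open Vale.Agent.P164 Vale.Agent.P164R Vale.Agent.P164.E8 Vale.Agent.P164.H411

universe u

variable {κ : ℝ} {k : ℝ → ℝ}

lemma seriesConv_iff (h8 : κ < 8) (c : ℝ) :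
    SeriesConv κ k c ↔ Summable fun n => Real.exp (-c * uu κ k n ^ (2 / xx κ)) := by
  have h1 : 16 / (8 - κ) = 2 / xx κ := by
    have : 8 - κ ≠ 0 := by linarith
    have h2 : xx κ = (8 - κ) / 8 := by unfold xx; ring
    rw [h2]; field_simp; norm_num
  rw [SeriesConv, h1]
  rfl

lemma sle_drv' (h0 : 0 < κ) {Ω : Type*} [MeasurableSpace Ω] {P : Measure Ω} {γ : Ω → ℝ → ℂ}
    (hγ : IsSLE κ P γ) :
    ∃ W : ℝ → Ω → ℝ, IsDrv κ P W ∧ ∀ᵐ ω ∂P, IsTrace (fun u => W u ω) (γ ω) := by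
  obtain ⟨B, hB, htr⟩ := hγ
  obtain ⟨W, hW, hWB⟩ := exists_drv h0.le hB
  refine ⟨W, hW, ?_⟩
  filter_upwards [htr, hWB] with ω h1 h2
  exact h1.congr_drive fun t ht => (h2 t ht).symm

lemma seg_ball {γ : ℝ → ℂ} (hc : ContinuousOn γ (Ici 0)) {s : ℝ} (hs : 0 < s) (t : ℝ) :
    ∃ n : ℕ, γ '' Icc s t ⊆ γ '' Ici 0 ∩ closedBall ((0 : ℝ) : ℂ) ((n : ℝ) + 1) := by
  have h1 : IsCompact (γ '' Icc s t) :=
    isCompact_Icc.image_of_continuousOn (hc.mono fun x hx => hs.le.trans hx.1)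
  obtain ⟨r, hr⟩ := h1.isBounded.subset_closedBall ((0 : ℝ) : ℂ)
  obtain ⟨n, hn⟩ := exists_nat_ge r
  exact ⟨n, subset_inter (image_mono fun x hx => hs.le.trans hx.1)
    (hr.trans (closedBall_subset_closedBall (by linarith)))⟩

/-- Convergence for one constant: positive measure. -/
theorem law_pos (h0 : 0 < κ) (h8 : κ < 8) (hk : IsGauge k) {c : ℝ} (hc : 0 < c)
    (h : SeriesConv κ k c) {Ω : Type u} [MeasurableSpace Ω] {P : Measure Ω} {γ : Ω → ℝ → ℂ}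
    (hγ : IsSLE κ P γ) :
    ∀ᵐ ω ∂P, ∀ s t : ℝ, 0 < s → s < t → 0 < gaugeMeasure k (γ ω '' Icc s t) := by
  obtain ⟨W, hW, htr⟩ := sle_drv' h0 hγ
  filter_upwards [pos_segmentsK h0 h8 hk hc ((seriesConv_iff h8 c).1 h) hW htr] with ω hω s t hs
  exact hω s t hs.le

/-- Divergence for one constant: finite measure. -/
theorem law_fin (h0 : 0 < κ) (h8 : κ < 8) (hk : IsGauge k) {c : ℝ} (hc : 0 < c)
    (h : ¬ SeriesConv κ k c) {Ω : Type u} [MeasurableSpace Ω] {P : Measure Ω} {γ : Ω → ℝ → ℂ}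
    (hγ : IsSLE κ P γ) :
    ∀ᵐ ω ∂P, ∀ s t : ℝ, 0 < s → s < t → gaugeMeasure k (γ ω '' Icc s t) < ⊤ := by
  obtain ⟨K, hK, H⟩ := mean_hpV.{u} h0 h8
  obtain ⟨W, hW, htr⟩ := sle_drv' h0 hγ
  have h1 : ∀ n : ℕ, ∀ᵐ ω ∂P,
      gaugeMeasure k (γ ω '' Ici 0 ∩ closedBall ((0 : ℝ) : ℂ) ((n : ℝ) + 1)) < ⊤ := by
    intro n
    obtain ⟨X, h1, h2, h3⟩ := H hk hc (mt (seriesConv_iff h8 c).2 h) hW htr 0
      (R := (n : ℝ) + 1) (by positivity)
    filter_upwards [h2, ae_lt_top h1 (ne_top_of_le_ne_top ENNReal.ofReal_ne_top h3)] with ω a b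
    exact a.trans_lt b
  filter_upwards [ae_all_iff.2 h1, htr] with ω hω hγω s t hs _
  obtain ⟨n, hn⟩ := seg_ball hγω.cont hs t
  exact (gaugeMeasure_mono k hn).trans_lt (hω n)

/-- Divergence for all constants: measure zero. -/
theorem law_null (h0 : 0 < κ) (h8 : κ < 8) (hk : IsGauge k)
    (h : ∀ c : ℝ, 0 < c → ¬ SeriesConv κ k c) : AllNull8.{u} κ k := by
  obtain ⟨K, hK, H⟩ := mean_hpV.{u} h0 h8
  intro Ω _ P γ hγ
  obtain ⟨W, hW, htr⟩ := sle_drv' h0 hγ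
  have hx := xx_pos h8
  have h1 : ∀ n : ℕ, ∀ᵐ ω ∂P,
      gaugeMeasure k (γ ω '' Ici 0 ∩ closedBall ((0 : ℝ) : ℂ) ((n : ℝ) + 1)) = 0 := by
    intro n
    have h2 := fun m : ℕ => H hk (c₀ := (m : ℝ) + 1) (by positivity)
      (mt (seriesConv_iff h8 _).2 (h _ (by positivity))) hW htr 0 (R := (n : ℝ) + 1) (by positivity)
    choose X hX1 hX2 hX3 using h2
    have h4 : Tendsto (fun m : ℕ => ENNReal.ofReal (K / ((m : ℝ) + 1) ^ (xx κ / 2) *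
        ((n : ℝ) + 1) ^ (1 + κ / 8))) atTop (𝓝 0) := by
      have h5 := (((tendsto_rpow_atTop (show 0 < xx κ / 2 by positivity)).comp
        (tendsto_atTop_add_const_right _ 1 tendsto_natCast_atTop_atTop)).const_div_atTop K).mul_const
        (((n : ℝ) + 1) ^ (1 + κ / 8))
      rw [zero_mul] at h5
      simpa using ENNReal.tendsto_ofReal h5
    have h5 : ∫⁻ ω, ⨅ m, X m ω ∂P = 0 := le_antisymm (ge_of_tendsto' h4 fun m =>
      (lintegral_mono fun ω => iInf_le _ m).trans (hX3 m)) zero_le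
    filter_upwards [ae_all_iff.2 hX2, (lintegral_eq_zero_iff (Measurable.iInf hX1)).1 h5]
      with ω a b
    exact le_antisymm ((le_iInf a).trans_eq b) zero_le
  filter_upwards [ae_all_iff.2 h1, htr] with ω hω hγω s t hs _
  obtain ⟨n, hn⟩ := seg_ball hγω.cont hs t
  exact le_antisymm ((gaugeMeasure_mono k hn).trans_eq (hω n)) zero_le

/-- Convergence for all constants: infinite measure. -/
theorem law_inf (h0 : 0 < κ) (h8 : κ < 8) (hk : IsGauge k)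
    (h : ∀ c : ℝ, 0 < c → SeriesConv κ k c) : AllInf8.{u} κ k := by
  obtain ⟨g, hg, ⟨c, hc, hs⟩, ho⟩ := exists_smaller h0 h8 hk
    fun c hc => (seriesConv_iff h8 c).1 (h c hc)
  intro Ω _ P γ hγ
  filter_upwards [law_pos h0 h8 hg hc ((seriesConv_iff h8 c).2 hs) hγ] with ω hω s t hs hst
  by_contra hcon
  exact (hω s t hs hst).ne' (cor8_null_littleO hg ho (lt_top_iff_ne_top.2 hcon))

theorem law_good (h0 : 0 < κ) (h8 : κ < 8) (hk : IsGauge k)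
    (h : (∃ c : ℝ, 0 < c ∧ SeriesConv κ k c) ∧ ∃ c : ℝ, 0 < c ∧ ¬ SeriesConv κ k c) :
    Good8.{u} κ k := by
  obtain ⟨⟨c, hc, h1⟩, c', hc', h2⟩ := h
  intro Ω _ P γ hγ
  filter_upwards [law_pos h0 h8 hk hc h1 hγ, law_fin h0 h8 hk hc' h2 hγ] with ω a b s t hs hst
  exact ⟨a s t hs hst, b s t hs hst⟩

/-- Brownian motion in every universe. -/
theorem exists_bm : ∃ (Ω : Type u) (_ : MeasurableSpace Ω) (P : Measure Ω) (B : ℝ≥0 → Ω → ℝ),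
    IsProbabilityMeasure P ∧ IsBrownianReal B P := by
  obtain ⟨Ω, _, P, B, hP, hB⟩ := Vale.Agent.P155.Tree.Bro.exists_isBrownianReal
  have hm : MeasurePreserving (MeasurableEquiv.ulift : ULift.{u} Ω ≃ᵐ Ω)
      (P.map (MeasurableEquiv.ulift : ULift.{u} Ω ≃ᵐ Ω).symm) P :=
    ((MeasurableEquiv.ulift : ULift.{u} Ω ≃ᵐ Ω).symm.measurable.measurePreserving P).symm _
  refine ⟨ULift.{u} Ω, inferInstance, P.map MeasurableEquiv.ulift.symm,
    fun t ω => B t (MeasurableEquiv.ulift ω),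
    Measure.isProbabilityMeasure_map MeasurableEquiv.ulift.symm.measurable.aemeasurable,
    ⟨⟨fun I => (hB.hasLaw I).fun_comp hm.hasLaw⟩, hm.quasiMeasurePreserving.ae hB.cont⟩⟩

/-- Two laws with incompatible properties cannot both hold. -/
theorem law_excl {p q : ℝ≥0∞ → Prop} (hp : SegmentLaw.{u} κ k p) (hq : SegmentLaw.{u} κ k q) :
    ∃ m, p m ∧ q m := by
  obtain ⟨Ω, _, P, B, hP, hB⟩ := exists_bm.{u}
  obtain ⟨ω, ⟨γ, h1, h2, h3⟩, γ', h4, -, h5⟩ := ((hp Ω P B hB).and (hq Ω P B hB)).exists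
  have h6 : γ' '' Icc 1 2 = γ '' Icc 1 2 :=
    image_congr fun t ht => h2 γ' h4 (zero_le_one.trans ht.1)
  exact ⟨_, h3 1 2 one_pos one_lt_two, h6 ▸ h5 1 2 one_pos one_lt_two⟩

/-- The series test. -/
theorem classify (h0 : 0 < κ) (h8 : κ < 8) (hk : IsGauge k) :
    ((SegmentLaw.{u} κ k fun m => 0 < m ∧ m < ⊤) ↔
      (∃ c : ℝ, 0 < c ∧ SeriesConv κ k c) ∧ ∃ c : ℝ, 0 < c ∧ ¬ SeriesConv κ k c) ∧
    ((SegmentLaw.{u} κ k fun m => m = 0) ↔ ∀ c : ℝ, 0 < c → ¬ SeriesConv κ k c) ∧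
    ((SegmentLaw.{u} κ k fun m => m = ⊤) ↔ ∀ c : ℝ, 0 < c → SeriesConv κ k c) := by
  have hP : ∀ c : ℝ, 0 < c → SeriesConv κ k c → SegmentLaw.{u} κ k fun m => 0 < m :=
    fun c hc h => segmentLaw_of h0 h8 fun Ω _ P γ hγ => law_pos h0 h8 hk hc h hγ
  have hF : ∀ c : ℝ, 0 < c → ¬ SeriesConv κ k c → SegmentLaw.{u} κ k fun m => m < ⊤ :=
    fun c hc h => segmentLaw_of h0 h8 fun Ω _ P γ hγ => law_fin h0 h8 hk hc h hγ
  have hN := fun h => segmentLaw_of (p := fun m => m = 0) h0 h8 (law_null.{u} h0 h8 hk h)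
  have hI := fun h => segmentLaw_of (p := fun m => m = ⊤) h0 h8 (law_inf.{u} h0 h8 hk h)
  refine ⟨⟨fun h => ⟨?_, ?_⟩, fun h => segmentLaw_of h0 h8 (law_good h0 h8 hk h)⟩,
    ⟨fun h c hc hs => ?_, hN⟩, fun h c hc => ?_, hI⟩
  · by_contra hcon
    obtain ⟨m, h1, h2⟩ := law_excl h (hN fun c hc hs => hcon ⟨c, hc, hs⟩)
    exact h1.1.ne' h2
  · by_contra hcon
    obtain ⟨m, h1, h2⟩ := law_excl h (hI fun c hc => by_contra fun hs => hcon ⟨c, hc, hs⟩)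
    exact h1.2.ne h2
  · obtain ⟨m, h1, h2⟩ := law_excl h (hP c hc hs)
    exact h2.ne' h1
  · by_contra hs
    obtain ⟨m, h1, h2⟩ := law_excl h (hF c hc hs)
    exact h2.ne h1

/-- A good gauge which is much smaller than the exact gauge along a sequence of scales. -/
theorem exists_good_dip (h0 : 0 < κ) (h8 : κ < 8) : ∃ k : ℝ → ℝ, IsGauge k ∧
    (SegmentLaw.{u} κ k fun m => 0 < m ∧ m < ⊤) ∧ ∀ ε : ℝ, 0 < ε → ∃ᶠ r in 𝓝[>] (0 : ℝ),
      k r ≤ ε * (r ^ (1 + κ / 8) * Real.log (Real.log (1 / r)) ^ (1 / 2 - κ / 16)) := by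
  obtain ⟨k, hk, h1, h2, h3⟩ := exists_dip h0 h8
  refine ⟨k, hk, (classify h0 h8 hk).1.2 ⟨⟨2, two_pos, (seriesConv_iff h8 2).2 h1⟩,
    1, one_pos, mt (seriesConv_iff h8 1).1 h2⟩, fun ε hε => ?_⟩
  simpa only [cor8_hh] using h3 ε hε

/-- The answer to the question. -/
theorem answer (h0 : 0 < κ) (h8 : κ < 8) :
    (∃ h : ℝ → ℝ, IsGauge h ∧ (∀ᶠ r in 𝓝[>] (0 : ℝ),
        h r = r ^ (1 + κ / 8) * Real.log (Real.log (1 / r)) ^ (1 / 2 - κ / 16)) ∧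
      SegmentLaw.{u} κ h fun m => 0 < m ∧ m < ⊤) ∧
    ∀ k : ℝ → ℝ, IsGauge k →
      (∀ᶠ r in 𝓝[>] (0 : ℝ), k r = r ^ (1 + κ / 8) * Real.log (Real.log (1 / r))) →
      SegmentLaw.{u} κ k fun m => m = ⊤ := by
  obtain ⟨⟨h, hg, ⟨r₀, hr₀, hr⟩, hgood⟩, hall⟩ :=
    full_of_core.{u} h0 h8 fun _ hg hr => good8 h0 h8 hg hr
  refine ⟨⟨h, hg, ?_, segmentLaw_of h0 h8 hgood⟩, fun k hk hev => ?_⟩
  · filter_upwards [Ioo_mem_nhdsGT hr₀] with r hr' using hr r hr'.1 hr'.2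
  · obtain ⟨r₁, hr₁, h1⟩ := (mem_nhdsGT_iff_exists_Ioo_subset).1 hev
    exact segmentLaw_of h0 h8 ((hall k hk).2.2.2 ⟨r₁, hr₁, fun r a b => h1 ⟨a, b⟩⟩)

end Vale.Agent.N164
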