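import Vale.Agent.P164.Bdl.B18

set_option linter.all false

/-!
# The sharp one-point estimate (no logarithm) and the sharp estimate for a heavy disc
-/

namespace Vale.Agent.P164.E8

open Set Metric Filter Topology MeasureTheory ProbabilityTheory
open scoped NNReal ENNReal

/-- Optional stopping at the first grid time with `U ≤ u`. -/
lemma sharp_opt {κ : ℝ} (h0 : 0 < κ) (h8 : κ < 8) {Ω : Type*} [MeasurableSpace Ω]
    {P : Measure Ω} {W : ℝ → Ω → ℝ} (hW : IsDrv κ P W) {z : ℂ} (hzpos : 0 < z.im)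
    (u ϰ c : ℝ) {δ : ℝ} (hδ : 0 < δ) (N : ℕ) :
    ∑ l ∈ Finset.range (N + 1),
      ∫⁻ ω in NK ϰ c δ W z l ∩ Fst δ u W z l,
        ENNReal.ofReal (St (MM κ) (fun v => W v ω) z (l * δ)) ∂P ≤
      ENNReal.ofReal (Real.exp (-xx κ * Real.log z.im)) := by
  have hprob := hW.prob
  set BB : ℕ → Set Ω := fun l => NK ϰ c δ W z l ∩ Fst δ u W z l with hBB
  have hBBmeas : ∀ l : ℕ, MeasurableSet[past W (l * δ)] (BB l) := by
    intro l
    have m2 : MeasurableSet[past W (l * δ)] (NK ϰ c δ W z l) := iterate_NK_meas hW hδ.le z l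
    have m3 : MeasurableSet[past W (l * δ)] (Fst δ u W z l) :=
      iterate_Fst_meas hW hδ.le _ z l
    exact @MeasurableSet.inter Ω (past W (l * δ)) _ _ m2 m3
  have hBdisj : Pairwise fun i j => Disjoint (BB i) (BB j) := by
    intro l l' hne
    refine Set.disjoint_left.2 fun ω hω hω' => hne ?_
    exact iterate_Fst_eq hω.2 hω'.2
  have hop := optional_stopping (P := P) (A := Set.univ) (N := N)
    (V := fun i ω => ENNReal.ofReal (St (MM κ) (fun v => W v ω) z (i * δ)))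
    (E := BB) (m := fun i : ℕ => past W (i * δ)) (@MeasurableSet.univ Ω _)
    (fun i j hij => past_mono (mul_le_mul_of_nonneg_right (by exact_mod_cast hij) hδ.le))
    (fun i => hW.past_le) hBBmeas hBdisj (fun i S hS => by
      have : (i : ℝ) * δ ≤ ((i + 1 : ℕ) : ℝ) * δ := by push_cast; nlinarith only [hδ]
      exact MM_super h0 hW z (by positivity) this hS)
  simp only [univ_inter, Nat.cast_zero, zero_mul] at hop
  refine hop.trans ?_
  calc ∫⁻ ω in Set.univ, ENNReal.ofReal (St (MM κ) (fun v => W v ω) z 0) ∂P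
      ≤ ∫⁻ _ in Set.univ, ENNReal.ofReal (Real.exp (-xx κ * Real.log z.im)) ∂P := by
        refine lintegral_mono fun ω => ENNReal.ofReal_le_ofReal ?_
        rw [St_of_mem (dom_zero.2 hzpos), Uf_zero, MM]
        refine mul_le_of_le_one_right (Real.exp_pos _).le ?_
        refine Real.rpow_le_one ?_ (sn_le_one _) (be_nonneg h0 h8)
        exact (sn_pos (Zf_im_pos le_rfl (dom_zero.2 hzpos))).le
    _ = ENNReal.ofReal (Real.exp (-xx κ * Real.log z.im)) := by
        simp only [Measure.restrict_univ, neg_mul, lintegral_const, measure_univ, mul_one]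

/-- One step of the bootstrap. -/
lemma sharp_step {κ : ℝ} (h0 : 0 < κ) (h8 : κ < 8) {Cs θ : ℝ} (hθ : 0 < θ)
    {Ω : Type*} [MeasurableSpace Ω] {P : Measure Ω} {W : ℝ → Ω → ℝ} (hW : IsDrv κ P W) {z : ℂ}
    (hz : 0 < z.im) {u : ℝ} (hu : u < Real.log z.im)
    (hsa : ∀ s : ℝ, 0 ≤ s → ∀ A : Set Ω, MeasurableSet[past W s] A →
      (∀ ω ∈ A, z ∈ loewnerDomain (fun v => W v ω) s ∧ sn (Zf (fun v => W v ω) z s) ≤ θ ∧
        u - 1 / 4 ≤ Uf (fun v => W v ω) z s) → ∀ S : Finset ℝ, (∀ t ∈ S, s ≤ t) →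
      P (A ∩ {ω | ∃ t ∈ S, z ∈ loewnerDomain (fun v => W v ω) t ∧
        Uf (fun v => W v ω) z t ≤ u - 1}) ≤ ENNReal.ofReal Cs * P A)
    {Ra : ℝ≥0∞}
    (hap : ∀ S : Finset ℝ, (∀ t ∈ S, 0 ≤ t) →
      P {ω | ∃ t ∈ S, z ∈ loewnerDomain (fun v => W v ω) t ∧ Uf (fun v => W v ω) z t ≤ u} ≤ Ra)
    {T : ℝ} (hT : 0 < T) :
    P {ω | ∃ t ∈ Icc 0 T, z ∈ loewnerDomain (fun v => W v ω) t ∧
        Uf (fun v => W v ω) z t < u - 1} ≤
      ENNReal.ofReal (1 / (Real.exp (-xx κ * u) * θ ^ be κ)) *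
        ENNReal.ofReal (Real.exp (-xx κ * Real.log z.im)) + ENNReal.ofReal Cs * Ra := by
  refine ENNReal.le_of_forall_pos_le_add fun e he _ => ?_
  have he' : (0 : ℝ) < e := he
  have h := BadCell_main h0 h8 hW (z := z) (T := T) (u := u) (θ := θ)
    (Q := ENNReal.ofReal (Real.exp (-xx κ * Real.log z.im))) (Ra := Ra)
    (Rη := ENNReal.ofReal e) (Rs := ENNReal.ofReal Cs) hT hu hθ (G := fun _ => univ)
    (fun _ _ _ _ => Subset.rfl)
    (fun ϰ _ => ⟨1, one_pos, 1, one_pos, fun c _ _ δ hδ _ N _ => by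
      simp only [inter_univ]
      exact sharp_opt h0 h8 hW hz u ϰ c hδ N⟩) hsa hap (nk_limit h0 hW hz (u - 1) hT he')
  rw [inter_univ, ENNReal.ofReal_coe_nnreal, add_comm] at h
  exact h

/-- The sharp one-point estimate: the probability that `U` goes below `u` at a time at which `z`
is alive is at most `C (e^u / Im z)^x`. -/
theorem approach_sharp {κ : ℝ} (h0 : 0 < κ) (h8 : κ < 8) :
    ∃ C : ℝ, 1 ≤ C ∧ ∀ {Ω : Type*} [MeasurableSpace Ω] {P : Measure Ω}
      {W : ℝ → Ω → ℝ} (_ : IsDrv κ P W) {z : ℂ} (_ : 0 < z.im) (u : ℝ)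
      (S : Finset ℝ) (_ : ∀ t ∈ S, 0 ≤ t),
      P {ω | ∃ t ∈ S, z ∈ loewnerDomain (fun v => W v ω) t ∧ Uf (fun v => W v ω) z t ≤ u} ≤
        ENNReal.ofReal (C * Real.exp (xx κ * (u - Real.log z.im))) := by
  obtain ⟨Cs, hCs, hsa⟩ := small_angle h0 h8
  have hx : 0 < xx κ := xx_pos h8
  have hpa := Approach_pa_pos h0 h8
  -- the angle
  obtain ⟨θ, hθ, hθs⟩ : ∃ θ : ℝ, 0 < θ ∧ Cs * θ ^ pa κ * Real.exp (2 * xx κ) ≤ 1 / 2 := by
    refine ⟨(1 / (2 * Cs * Real.exp (2 * xx κ))) ^ (1 / pa κ), by positivity, le_of_eq ?_⟩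
    rw [← Real.rpow_mul (by positivity), one_div_mul_cancel hpa.ne', Real.rpow_one]
    field_simp
  obtain ⟨A, hA⟩ : ∃ A : ℝ, A = Real.exp (2 * xx κ) / θ ^ be κ := ⟨_, rfl⟩
  have hA0 : 0 < A := by rw [hA]; positivity
  have hE1 : 1 ≤ Real.exp (2 * xx κ) := Real.one_le_exp (by positivity)
  obtain ⟨C, hC⟩ : ∃ C : ℝ, C = 2 * A + Real.exp (2 * xx κ) := ⟨_, rfl⟩
  have hC1 : 1 ≤ C := by rw [hC]; linarith
  refine ⟨C, hC1, ?_⟩
  intro Ω _ P W hW z hz
  have hprob := hW.prob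
  obtain ⟨L, hL⟩ : ∃ L, L = Real.log z.im := ⟨_, rfl⟩
  rw [← hL]
  have base : ∀ u : ℝ, L - 2 ≤ u → ∀ E : Set Ω,
      P E ≤ ENNReal.ofReal (C * Real.exp (xx κ * (u - L))) := by
    intro u hu E
    refine prob_le_one.trans ?_
    rw [← ENNReal.ofReal_one]
    refine ENNReal.ofReal_le_ofReal ?_
    have h1 : Real.exp (-(2 * xx κ)) ≤ Real.exp (xx κ * (u - L)) := by
      refine Real.exp_le_exp.2 ?_
      nlinarith only [hx, hu]
    have h2 : Real.exp (2 * xx κ) * Real.exp (-(2 * xx κ)) = 1 := by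
      rw [← Real.exp_add]; simp
    have h3 : Real.exp (2 * xx κ) ≤ C := by rw [hC]; linarith
    calc (1 : ℝ) = Real.exp (2 * xx κ) * Real.exp (-(2 * xx κ)) := h2.symm
      _ ≤ C * Real.exp (xx κ * (u - L)) := by gcongr
  have main : ∀ n : ℕ, ∀ u : ℝ, L - 2 * (n + 1) ≤ u → ∀ S : Finset ℝ, (∀ t ∈ S, 0 ≤ t) →
      P {ω | ∃ t ∈ S, z ∈ loewnerDomain (fun v => W v ω) t ∧ Uf (fun v => W v ω) z t ≤ u} ≤
        ENNReal.ofReal (C * Real.exp (xx κ * (u - L))) := by
    intro n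
    induction n with
    | zero =>
      intro u hu S _
      exact base u (by simpa using hu) _
    | succ n ih =>
      intro u hu S hS
      rcases le_or_gt (L - 2) u with hb | hb
      · exact base u hb _
      have hu2 : L - 2 * (n + 1) ≤ u + 2 := by push_cast at hu; linarith
      obtain ⟨T, hT0, hT⟩ : ∃ T : ℝ, 0 < T ∧ ∀ t ∈ S, t ≤ T := by
        obtain ⟨T, hT⟩ := S.bddAbove
        exact ⟨max T 1, lt_max_of_lt_right one_pos, fun t ht => (hT ht).trans (le_max_left _ _)⟩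
      have h1 := sharp_step h0 h8 (Cs := Cs * θ ^ pa κ) hθ hW hz (u := u + 2)
        (by rw [← hL]; linarith) (fun s hs A hA hA2 S hS => hsa hW hs hθ.le hA hA2 S hS)
        (ih (u + 2) hu2) hT0
      refine le_trans (measure_mono ?_) (h1.trans ?_)
      · rintro ω ⟨t, ht, h2, h3⟩
        exact ⟨t, ⟨hS t ht, hT t ht⟩, h2, by linarith⟩
      rw [← hL, ← ENNReal.ofReal_mul (by positivity), ← ENNReal.ofReal_mul (by positivity),
        ← ENNReal.ofReal_add (by positivity) (by positivity)]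
      refine ENNReal.ofReal_le_ofReal ?_
      have e1 : 1 / (Real.exp (-xx κ * (u + 2)) * θ ^ be κ) * Real.exp (-xx κ * L) =
          A * Real.exp (xx κ * (u - L)) := by
        have : Real.exp (-xx κ * L) =
            Real.exp (-xx κ * (u + 2)) * (Real.exp (2 * xx κ) * Real.exp (xx κ * (u - L))) := by
          rw [← Real.exp_add, ← Real.exp_add]; congr 1; ring
        rw [this, hA]
        field_simp
      have e2 : Real.exp (xx κ * (u + 2 - L)) =
          Real.exp (2 * xx κ) * Real.exp (xx κ * (u - L)) := by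
        rw [← Real.exp_add]; congr 1; ring
      rw [e1, e2]
      have hE := Real.exp_pos (xx κ * (u - L))
      have e3 : Cs * θ ^ pa κ * (C * (Real.exp (2 * xx κ) * Real.exp (xx κ * (u - L)))) =
          (Cs * θ ^ pa κ * Real.exp (2 * xx κ)) * (C * Real.exp (xx κ * (u - L))) := by ring
      have e4 : (Cs * θ ^ pa κ * Real.exp (2 * xx κ)) * (C * Real.exp (xx κ * (u - L))) ≤
          1 / 2 * (C * Real.exp (xx κ * (u - L))) := by gcongr
      have e5 : A * Real.exp (xx κ * (u - L)) ≤ 1 / 2 * (C * Real.exp (xx κ * (u - L))) := by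
        have : A ≤ 1 / 2 * C := by rw [hC]; linarith
        nlinarith only [this, hE]
      linarith
  intro u S hS
  obtain ⟨n, hn⟩ := exists_nat_ge ((L - u) / 2)
  exact main n u (by linarith) S hS

/-- `disc_bad` without the logarithm. -/
theorem disc_bad_sharp {κ : ℝ} (h0 : 0 < κ) (h8 : κ < 8) :
    ∃ c C R₀ : ℝ, 0 < c ∧ 0 < C ∧ 1 ≤ R₀ ∧ ∀ {Ω : Type*} [MeasurableSpace Ω] {P : Measure Ω}
      {W : ℝ → Ω → ℝ} (_ : IsDrv κ P W)
      {z₀ : ℂ} {ρ R ε T : ℝ} (_ : 0 < ρ) (_ : ρ ≤ 1 / 100) (_ : dist z₀ Complex.I ≤ 3 / 4)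
      (_ : R₀ ≤ R) (_ : 0 < ε) (_ : ε ≤ ρ / 8) (_ : 0 ≤ T),
      ∫⁻ ω in {ω | C * R ^ xx κ * ρ ^ dd κ ≤ mu κ ε (fun u => W u ω) (ball z₀ ρ) 0 T},
          ENNReal.ofReal (mu κ ε (fun u => W u ω) (ball z₀ ρ) 0 T) ∂P ≤
        ENNReal.ofReal ((C * Real.exp (-c * R ^ 2) + C * R ^ C * (ε / ρ) ^ c) * ρ ^ 2) := by
  obtain ⟨c₁, C₁, R₁, hc₁, hC₁, hR₁, htail⟩ := tail8 h0 h8
  obtain ⟨C₂, hC₂', happ⟩ := approach_sharp h0 h8
  have hC₂ : 0 < C₂ := by linarith only [hC₂']
  refine ⟨c₁, 300 * C₁ + 84 * C₁ * C₂, R₁, hc₁, by (clear * - hC₁ hC₂; positivity), hR₁, ?_⟩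
  intro Ω _ P W hW z₀ ρ R ε T hρ hρ1 hz₀ hR hε hερ hT
  have hP := hW.prob
  obtain ⟨C, hC⟩ : ∃ C, C = 300 * C₁ + 84 * C₁ * C₂ := ⟨_, rfl⟩
  rw [← hC]
  have hC0 : 0 < C := by rw [hC]; positivity
  have hCC : 0 < C₁ * C₂ := by positivity
  have hC1C : C₁ ≤ C := by rw [hC]; nlinarith only [hC₁, hCC]
  have hz₀im : 1 / 4 ≤ z₀.im := by
    have h1 : |(z₀ - Complex.I).im| ≤ ‖z₀ - Complex.I‖ := Complex.abs_im_le_norm _
    rw [Complex.dist_eq] at hz₀
    have h2 := (abs_le.1 (h1.trans hz₀)).1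
    rw [Complex.sub_im, Complex.I_im] at h2
    linarith only [h2]
  have hρz : 3 * ρ < z₀.im := by (clear * - hρ1 hε hερ hz₀im; linarith)
  have hεq : ε ≤ ρ := by linarith only [hε, hερ]
  have hR1 : 1 ≤ R := hR₁.trans hR
  have hR0 : 0 < R := by linarith only [hR₁, hR]
  have hdd : 1 ≤ dd κ := by unfold dd; linarith only [h0]
  have hxx0 : 0 < xx κ := by unfold xx; linarith only [h8]
  have hxx1 : xx κ ≤ 1 := by unfold xx; linarith only [h0]
  have hsum : dd κ + xx κ = 2 := by unfold dd xx; ring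
  have hfp : Measurable[past W T] (fun ω => mu κ ε (fun u => W u ω) (ball z₀ ρ) 0 T) :=
    discBad_mu_past hW le_rfl hT _
  have hfm : Measurable (fun ω => mu κ ε (fun u => W u ω) (ball z₀ ρ) 0 T) :=
    hfp.mono hW.past_le le_rfl
  obtain ⟨f, hf⟩ : ∃ f : Ω → ℝ, f = fun ω => mu κ ε (fun u => W u ω) (ball z₀ ρ) 0 T := ⟨_, rfl⟩
  have hfω : ∀ ω, mu κ ε (fun u => W u ω) (ball z₀ ρ) 0 T = f ω := fun ω => by rw [hf]
  simp only [hfω]
  rw [← hf] at hfm
  have hexp : 0 < Real.exp (-c₁ * R ^ 2) := Real.exp_pos _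
  obtain ⟨F₁, hF₁⟩ : ∃ F₁ : ℝ, F₁ = C₁ * Real.exp (-c₁ * R ^ 2) + C₁ * R ^ C₁ * (ε / ρ) ^ c₁ :=
    ⟨_, rfl⟩
  obtain ⟨F, hF⟩ : ∃ F : ℝ, F = C * Real.exp (-c₁ * R ^ 2) + C * R ^ C * (ε / ρ) ^ c₁ :=
    ⟨_, rfl⟩
  have hF₁0 : 0 < F₁ := by rw [hF₁]; (clear * - hC₁ hR1 hε hρ; positivity)
  have hF0 : 0 < F := by rw [hF]; positivity
  have hFF : ∀ a : ℝ, 0 < a → a * C₁ ≤ C → a * F₁ ≤ F := by
    intro a ha haC
    have h1 : R ^ C₁ ≤ R ^ C := Real.rpow_le_rpow_of_exponent_le hR1 hC1C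
    have h2 : 0 < (ε / ρ) ^ c₁ := by (clear * - hε hρ; positivity)
    have h3 : 0 < R ^ C := by positivity
    calc a * F₁ = (a * C₁) * Real.exp (-c₁ * R ^ 2) + (a * C₁) * R ^ C₁ * (ε / ρ) ^ c₁ := by
          rw [hF₁]; ring
      _ ≤ C * Real.exp (-c₁ * R ^ 2) + C * R ^ C * (ε / ρ) ^ c₁ := by gcongr
      _ = F := hF.symm
  rw [← hF]
  rcases lt_or_ge (1 / 300) ρ with hbig | hsmall
  · -- large discs
    have h := htail hW hρ hρz hR hε hεq le_rfl hT (A := univ) MeasurableSet.univ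
      (fun ω _ z hz => by
        have hzim : 6 / 25 ≤ z.im := by
          have h1 : |(z - z₀).im| ≤ ‖z - z₀‖ := Complex.abs_im_le_norm _
          rw [mem_ball, Complex.dist_eq] at hz
          have h2 := (abs_le.1 (h1.trans hz.le)).1
          rw [Complex.sub_im] at h2
          linarith only [hρ1, hz₀im, h2]
        refine ⟨dom_zero.2 (by linarith only [hzim]), ?_⟩
        rw [Uf_zero]
        exact Real.log_le_log (by (clear * - hρ; positivity)) (by linarith only [hρ1, hzim]))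
    simp only [hfω, univ_inter, measure_univ, mul_one, ← hF₁] at h
    refine (lintegral_mono_set fun ω hω => ?_).trans (h.trans (ENNReal.ofReal_le_ofReal ?_))
    · change C * R ^ xx κ * ρ ^ dd κ ≤ f ω at hω
      change C₁ * R ^ xx κ * ρ ^ dd κ ≤ f ω
      refine le_trans ?_ hω
      (clear * - hC1C hR1 hρ; gcongr)
    · have h1 : ρ ^ dd κ ≤ ρ := by
        have := Real.rpow_le_rpow_of_exponent_ge hρ (by linarith only [hρ1]) hdd
        rwa [Real.rpow_one] at this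
      have h2 : ρ ≤ 300 * ρ ^ 2 := by nlinarith only [hbig]
      calc F₁ * ρ ^ dd κ ≤ F₁ * (300 * ρ ^ 2) := by
            have := h1.trans h2
            (clear * - this hF₁0; gcongr)
        _ = (300 * F₁) * ρ ^ 2 := by ring
        _ ≤ F * ρ ^ 2 := by
            have : 300 * F₁ ≤ F := hFF 300 (by norm_num) (by rw [hC]; nlinarith only [hCC])
            (clear * - this hF0 hρ; gcongr)
  · -- small discs
    obtain ⟨Bad, hBad⟩ : ∃ Bad : Set Ω, Bad = {ω | C * R ^ xx κ * ρ ^ dd κ ≤ f ω} := ⟨_, rfl⟩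
    rw [← hBad]
    have hBadm : MeasurableSet Bad := by
      rw [hBad]
      exact measurableSet_le measurable_const hfm
    have hEm : ∀ n k, MeasurableSet (crossEv W z₀ ρ T n k) := fun n k =>
      hW.past_le _ (crossEv_past hW hT n k)
    have hU0 : ∀ ω, Real.log (1 / 4) ≤ Uf (fun u => W u ω) z₀ 0 := fun ω => by
      rw [Uf_zero]
      exact Real.log_le_log (by positivity) hz₀im
    -- total probability of the crossing events
    have hprob : ∀ n : ℕ, P (⋃ k ∈ Finset.range (n + 1), crossEv W z₀ ρ T n k) ≤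
        ENNReal.ofReal (C₂ * (84 * ρ) ^ xx κ) := by
      intro n
      classical
      have hzp : 0 < z₀.im := by linarith only [hz₀im]
      have h := happ hW (z := z₀) hzp (Real.log (21 * ρ))
        (Finset.image (fun k => dgrid T n (k + 1)) (Finset.range (n + 1))) (by
          intro t ht
          obtain ⟨k, -, rfl⟩ := Finset.mem_image.1 ht
          exact dgrid_nonneg hT _ _)
      refine le_trans (measure_mono ?_) (h.trans (ENNReal.ofReal_le_ofReal ?_))
      · intro ω hω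
        simp only [mem_iUnion] at hω
        obtain ⟨k, hk, ⟨h1, h2, h3⟩, -⟩ := hω
        exact ⟨dgrid T n (k + 1), Finset.mem_image.2 ⟨k, hk, rfl⟩, h1, h3⟩
      · refine mul_le_mul_of_nonneg_left ?_ hC₂.le
        rw [Real.rpow_def_of_pos (by positivity), mul_comm (Real.log (84 * ρ))]
        refine Real.exp_le_exp.2 (mul_le_mul_of_nonneg_left ?_ hxx0.le)
        rw [← Real.log_div (by positivity) hzp.ne']
        refine Real.log_le_log (by positivity) ?_
        rw [div_le_iff₀ hzp]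
        nlinarith only [hz₀im, hρ]
    -- the mass on the crossing events
    have hmass : ∀ n k, k < n + 1 → ∫⁻ ω in Bad ∩ crossEv W z₀ ρ T n k,
        ENNReal.ofReal (f ω) ∂P ≤ ENNReal.ofReal (F₁ * ρ ^ dd κ) *
          P (crossEv W z₀ ρ T n k) := by
      intro n k hk
      have ht0 : 0 ≤ dgrid T n (k + 1) := dgrid_nonneg hT _ _
      have htT : dgrid T n (k + 1) ≤ T := dgrid_le hT n (by (clear * - hk; omega))
      have heq : ∀ ω ∈ crossEv W z₀ ρ T n k, f ω =
          mu κ ε (fun u => W u ω) (ball z₀ ρ) (dgrid T n (k + 1)) T := by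
        rintro ω ⟨⟨h1, h2, -⟩, -⟩
        rw [← hfω]
        exact discBad_mu_eq h0 h8 (hW.cont ω) ht0 htT hρ hε hερ h1 h2
      have h := htail hW hρ hρz hR hε hεq ht0 htT (A := crossEv W z₀ ρ T n k)
        (crossEv_past hW hT n k) (by
          rintro ω ⟨⟨h1, h2, -⟩, -⟩ z hz
          obtain ⟨h3, h5⟩ := discBad_alive (hW.cont ω) ht0 hρ h1 h2 hz
          exact ⟨h3, (Real.log_le_log (by (clear * - hρ; positivity)) (by linarith only [hε, hερ])).trans h5⟩)
      rw [← hF₁] at h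
      refine le_trans ?_ h
      rw [setLIntegral_congr_fun (hBadm.inter (hEm n k))
        (g := fun ω => ENNReal.ofReal (mu κ ε (fun u => W u ω) (ball z₀ ρ)
          (dgrid T n (k + 1)) T)) (fun ω hω => by rw [heq ω hω.2])]
      refine lintegral_mono_set ?_
      rintro ω ⟨h1, h2⟩
      refine ⟨h2, ?_⟩
      rw [hBad] at h1
      change C * R ^ xx κ * ρ ^ dd κ ≤ f ω at h1
      rw [heq ω h2] at h1
      refine le_trans ?_ h1
      (clear * - hC1C hR1 hρ; gcongr)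
    obtain ⟨K, hK⟩ : ∃ K : ℝ≥0∞, K = ENNReal.ofReal (F₁ * ρ ^ dd κ) *
      ENNReal.ofReal (C₂ * (84 * ρ) ^ xx κ) := ⟨_, rfl⟩
    have hbound : ∀ n : ℕ, ∫⁻ ω in Bad ∩ ⋃ k ∈ Finset.range (n + 1), crossEv W z₀ ρ T n k,
        ENNReal.ofReal (f ω) ∂P ≤ K := by
      intro n
      have hpd : ∀ (g : ℕ → Set Ω), (∀ k, g k ⊆ crossEv W z₀ ρ T n k) →
          Set.PairwiseDisjoint (↑(Finset.range (n + 1)) : Set ℕ) g := by
        intro g hg j _ k _ hjk
        rcases lt_or_gt_of_ne hjk with h | h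
        · exact (crossEv_disjoint hW hT n h).mono (hg j) (hg k)
        · exact ((crossEv_disjoint hW hT n h).mono (hg k) (hg j)).symm
      have h1 : Bad ∩ ⋃ k ∈ Finset.range (n + 1), crossEv W z₀ ρ T n k =
          ⋃ k ∈ Finset.range (n + 1), Bad ∩ crossEv W z₀ ρ T n k := by
        simp only [inter_iUnion]
      rw [h1, lintegral_biUnion_finset (hpd _ fun k => inter_subset_right)
        (fun k _ => hBadm.inter (hEm n k))]
      calc ∑ k ∈ Finset.range (n + 1), ∫⁻ ω in Bad ∩ crossEv W z₀ ρ T n k,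
            ENNReal.ofReal (f ω) ∂P
          ≤ ∑ k ∈ Finset.range (n + 1),
            ENNReal.ofReal (F₁ * ρ ^ dd κ) *
              P (crossEv W z₀ ρ T n k) :=
            Finset.sum_le_sum fun k hk => hmass n k (Finset.mem_range.1 hk)
        _ = ENNReal.ofReal (F₁ * ρ ^ dd κ) *
              P (⋃ k ∈ Finset.range (n + 1), crossEv W z₀ ρ T n k) := by
            rw [← Finset.mul_sum, measure_biUnion_finset (hpd _ fun k => Subset.rfl)
              fun k _ => hEm n k]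
        _ ≤ K := by rw [hK]; exact mul_le_mul_right (hprob n) _
    -- Fatou
    have hae : ∀ᵐ ω ∂P, Bad.indicator (fun ω => ENNReal.ofReal (f ω)) ω ≤
        liminf (fun n : ℕ => (Bad ∩ ⋃ k ∈ Finset.range (n + 1), crossEv W z₀ ρ T n k).indicator
          (fun ω => ENNReal.ofReal (f ω)) ω) atTop := by
      refine Filter.Eventually.of_forall fun ω => ?_
      by_cases hωB : ω ∈ Bad
      · have hfpos : 0 < f ω := by
          rw [hBad] at hωB
          exact lt_of_lt_of_le (by (clear * - hC0 hR1 hρ; positivity)) hωB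
        have h6 : Real.log (21 * ρ) < Uf (fun u => W u ω) z₀ 0 :=
          lt_of_lt_of_le (Real.log_lt_log (by positivity) (by linarith only [hsmall])) (hU0 ω)
        obtain ⟨t₁, ht₁, hal₁, hU₁⟩ : ∃ t ∈ Icc 0 T, z₀ ∈ loewnerDomain (fun u => W u ω) t ∧
            Uf (fun u => W u ω) z₀ t < Real.log (20 * ρ) := by
          by_contra hcon
          push Not at hcon
          have h3 := low_mu_zero h0 h8 (hW.cont ω) (by linarith only [hz₀im]) hρ hε hερ hT hcon
          rw [hfω] at h3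
          exact hfpos.ne' h3
        refine le_liminf_of_le (by isBoundedDefault) ?_
        filter_upwards [low_cross (hW.cont ω) hρ ht₁ hal₁ h6 hU₁] with n hn
        obtain ⟨k, hk, hal, h7, h9⟩ := hn
        have hmem : ω ∈ Bad ∩ ⋃ k ∈ Finset.range (n + 1), crossEv W z₀ ρ T n k := by
          refine ⟨hωB, ?_⟩
          simp only [mem_iUnion]
          exact ⟨k, Finset.mem_range.2 hk, ⟨hal, h7⟩,
            ⟨dom_mono (dgrid_mono hT n (Nat.le_succ k)) hal, h9⟩⟩
        rw [indicator_of_mem hωB, indicator_of_mem hmem]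
      · rw [indicator_of_notMem hωB]
        exact zero_le
    have hUm : ∀ n : ℕ, MeasurableSet (Bad ∩ ⋃ k ∈ Finset.range (n + 1),
        crossEv W z₀ ρ T n k) := fun n =>
      hBadm.inter (Finset.measurableSet_biUnion _ fun k _ => hEm n k)
    have hfin : ∫⁻ ω in Bad, ENNReal.ofReal (f ω) ∂P ≤ K := by
      rw [← lintegral_indicator hBadm]
      refine (lintegral_mono_ae hae).trans ?_
      refine (lintegral_liminf_le fun n => hfm.ennreal_ofReal.indicator (hUm n)).trans ?_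
      refine liminf_le_of_le (by isBoundedDefault) fun b hb => ?_
      obtain ⟨n, hn⟩ := hb.exists
      refine hn.trans ?_
      rw [lintegral_indicator (hUm n)]
      exact hbound n
    refine hfin.trans ?_
    rw [hK, ← ENNReal.ofReal_mul (by (clear * - hF₁0 hρ; positivity))]
    refine ENNReal.ofReal_le_ofReal ?_
    have e1 : (84 * ρ) ^ xx κ ≤ 84 * ρ ^ xx κ := by
      rw [Real.mul_rpow (by norm_num) hρ.le]
      have : (84 : ℝ) ^ xx κ ≤ 84 ^ (1 : ℝ) :=
        Real.rpow_le_rpow_of_exponent_le (by norm_num) hxx1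
      rw [Real.rpow_one] at this
      (clear * - this hρ; gcongr)
    have e2 : ρ ^ dd κ * ρ ^ xx κ = ρ ^ 2 := by
      rw [← Real.rpow_add hρ, hsum, Real.rpow_two]
    calc F₁ * ρ ^ dd κ * (C₂ * (84 * ρ) ^ xx κ)
        ≤ F₁ * ρ ^ dd κ * (C₂ * (84 * ρ ^ xx κ)) := by (clear * - hC₂ e1 hρ hF₁0; gcongr)
      _ = (84 * C₂ * F₁) * (ρ ^ dd κ * ρ ^ xx κ) := by ring
      _ ≤ F * ρ ^ 2 := by
          rw [e2]
          have : 84 * C₂ * F₁ ≤ F := hFF (84 * C₂) (by positivity) (by rw [hC]; nlinarith only [hC₁])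
          (clear * - this hρ; gcongr)

end Vale.Agent.P164.E8
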